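import Mathlib.Data.Finite.Prod
import Mathlib.Data.Fintype.Pi
import Mathlib.GroupTheory.SpecificGroups.Alternating
import Mathlib.GroupTheory.SpecificGroups.Alternating.Simple
import Mathlib.Algebra.Group.Subgroup.Basic
import Mathlib.Data.Fintype.Perm
import Mathlib.Order.Hom.Lattice
import Mathlib.Data.Fintype.Option
import Mathlib.Order.Interval.Set.OrdConnected
import Mathlib.Order.Sublattice
import Mathlib.Data.Fintype.Card
import Vale.Agent.P183.Defs
import Vale.Agent.P183.Bdl.B1

set_option linter.all false

section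

/-!
Basic facts on representable lattices.
-/

namespace Vale.Agent.P183

/-- Representability is invariant under isomorphism. -/
theorem Representable.of_iso {L L' : Type} [LE L] [LE L'] (e : L' ≃o L) (h : Representable L) :
    Representable L' := by
  obtain ⟨A, ⟨f⟩⟩ := h
  exact ⟨A, ⟨e.trans f⟩⟩

/-- The closed systems of equivalences coming from representable lattices. -/
theorem Representable.exists_closed {L : Type} [PartialOrder L] (h : Representable L) :
    ∃ (A : Type) (_ : Finite A) (_ : Nonempty A) (κ : L → Setoid A),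
      (∀ a b, κ a ≤ κ b ↔ a ≤ b) ∧
      ∀ r : Setoid A, (∀ f : A → A, (∀ l, ∀ x y, κ l x y → κ l (f x) (f y)) →
        ∀ x y, r x y → r (f x) (f y)) → ∃ l, κ l = r := by
  classical
  obtain ⟨A, ⟨e⟩⟩ := h
  refine ⟨A.carrier, A.finite_carrier, A.nonempty_carrier, fun l => (e l).1, ?_, ?_⟩
  · intro a b
    exact e.le_iff_le
  · intro r hr
    have hcon : A.IsCongruence r := by
      intro i x y hxy
      have step : ∀ s : Finset (Fin (A.arity i)),
          r (A.op i x) (A.op i (fun j => if j ∈ s then y j else x j)) := by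
        intro s
        induction s using Finset.induction_on with
        | empty => simp
        | insert j s hj ih =>
          refine Setoid.trans' _ ih ?_
          have h1 : (fun j' => if j' ∈ s then y j' else x j') =
              Function.update (fun j' => if j' ∈ s then y j' else x j') j (x j) := by
            funext j'
            by_cases h : j' = j
            · subst h; simp [hj]
            · simp [h]
          have h2 : (fun j' => if j' ∈ insert j s then y j' else x j') =
              Function.update (fun j' => if j' ∈ s then y j' else x j') j (y j) := by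
            funext j'
            by_cases h : j' = j
            · subst h; simp
            · simp [h]
          rw [h1, h2]
          refine hr (fun a => A.op i (Function.update
            (fun j' => if j' ∈ s then y j' else x j') j a)) ?_ _ _ (hxy j)
          intro l a b hab
          refine (e l).2 i _ _ ?_
          intro j'
          by_cases h : j' = j
          · subst h; simpa using hab
          · simp [h]
      simpa using step Finset.univ
    obtain ⟨l, hl⟩ := e.surjective ⟨r, hcon⟩
    exact ⟨l, congrArg Subtype.val hl⟩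

/-- An interval of a congruence lattice of a finite unary algebra is representable. -/
theorem representable_of_adm {L B : Type} [PartialOrder L] [Finite B] [Nonempty B] (τ : Setoid B)
    (F : Set (B → B))
    (e : Nonempty (L ≃o {ρ : Setoid B // τ ≤ ρ ∧ ∀ f ∈ F, ∀ b b', ρ b b' → ρ (f b) (f b')})) :
    Representable L := by
  obtain ⟨e⟩ := e
  let P : Setoid B → Prop := fun ρ => τ ≤ ρ ∧ ∀ f ∈ F, ∀ b b', ρ b b' → ρ (f b) (f b')
  let η : Setoid B := sInf {ρ | P ρ}
  have hη : P η := by
    constructor
    · exact le_sInf fun ρ hρ => hρ.1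
    · intro f hf b b' hb ρ hρ
      exact hρ.2 f hf b b' (hb ρ hρ)
  have hmin : ∀ ρ, P ρ → η ≤ ρ := fun ρ hρ => sInf_le hρ
  let A : FiniteAlgebra :=
    { carrier := Quotient η
      index := {f : B → B // f ∈ F}
      arity := fun _ => 1
      op := fun f x => Quotient.map f.1 (fun b b' h => hη.2 f.1 f.2 b b' h) (x 0)
      finite_carrier := inferInstance
      nonempty_carrier := (inferInstance : Nonempty B).map (Quotient.mk η)
      finite_index := inferInstance }
  have hA : ∀ r : Setoid (Quotient η), A.IsCongruence r ↔ P (Setoid.comap (Quotient.mk η) r) := by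
    intro r
    constructor
    · intro h
      constructor
      · intro b b' hb
        show r (Quotient.mk η b) (Quotient.mk η b')
        rw [Quotient.sound (hη.1 hb)]
      · intro f hf b b' hb
        exact h (⟨f, hf⟩ : A.index) (fun _ => Quotient.mk η b) (fun _ => Quotient.mk η b')
          (fun _ => hb)
    · intro h i x y hxy
      have key : ∀ (u v : Quotient η), r u v →
          r (Quotient.map i.1 (fun b b' h => hη.2 i.1 i.2 b b' h) u)
            (Quotient.map i.1 (fun b b' h => hη.2 i.1 i.2 b b' h) v) := by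
        intro u v
        refine Quotient.inductionOn₂ u v ?_
        intro b b' hb
        exact h.2 i.1 i.2 b b' hb
      exact key _ _ (hxy 0)
  let g : {ρ : Setoid B // P ρ} → A.Con := fun ρ =>
    ⟨Setoid.correspondence η ⟨ρ.1, hmin _ ρ.2⟩, by
      rw [hA]
      exact ρ.2⟩
  refine ⟨A, ⟨e.trans (RelIso.ofSurjective (OrderEmbedding.ofMapLEIff g ?_) ?_)⟩⟩
  · intro a b
    exact (Setoid.correspondence η).le_iff_le
  · rintro ⟨r, hr⟩
    refine ⟨⟨Setoid.comap (Quotient.mk η) r, (hA r).1 hr⟩, ?_⟩
    apply Subtype.ext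
    apply Setoid.ext
    intro u v
    exact Quotient.inductionOn₂ u v fun _ _ => Iff.rfl

end Vale.Agent.P183
end

section

/-!
The class of representable lattices is closed under duals (Kurzweil, Netter).
-/

namespace Vale.Agent.P183

section Diag

variable {A S : Type} [Group S]

/-- Values at `c` of the elements of `K` which are trivial on `P`. -/
def valsAt (K : Subgroup (A → S)) (P : Finset A) (c : A) : Subgroup S where
  carrier := {s | ∃ φ ∈ K, (∀ p ∈ P, φ p = 1) ∧ φ c = s}
  one_mem' := ⟨1, K.one_mem, fun _ _ => rfl, rfl⟩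
  mul_mem' := by
    rintro _ _ ⟨φ, h1, h2, rfl⟩ ⟨ψ, h3, h4, rfl⟩
    refine ⟨φ * ψ, K.mul_mem h1 h3, fun p hp => ?_, rfl⟩
    simp [h2 p hp, h4 p hp]
  inv_mem' := by
    rintro _ ⟨φ, h1, h2, rfl⟩
    refine ⟨φ⁻¹, K.inv_mem h1, fun p hp => ?_, rfl⟩
    simp [h2 p hp]

theorem valsAt_normal (K : Subgroup (A → S)) (hD : ∀ s : S, (fun _ => s) ∈ K) (P : Finset A)
    (c : A) : (valsAt K P c).Normal := by
  constructor
  rintro _ ⟨φ, h1, h2, rfl⟩ g
  refine ⟨(fun _ => g) * φ * (fun _ => g)⁻¹, K.mul_mem (K.mul_mem (hD g) h1) (K.inv_mem (hD g)),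
    fun p hp => ?_, rfl⟩
  simp [h2 p hp]

theorem valsAt_eq_top [IsSimpleGroup S] (hS : ∃ a b : S, a * b ≠ b * a)
    (K : Subgroup (A → S)) (hD : ∀ s : S, (fun _ => s) ∈ K)
    (P : Finset A) (c : A) (hP : ∀ p ∈ P, ∃ ψ ∈ K, ψ c ≠ ψ p) : valsAt K P c = ⊤ := by
  classical
  induction P using Finset.induction_on with
  | empty =>
    rw [eq_top_iff]
    intro s _
    exact ⟨_, hD s, by simp, rfl⟩
  | insert p P hp ih =>
    have h1 : valsAt K P c = ⊤ := ih fun q hq => hP q (Finset.mem_insert_of_mem hq)
    have h2 : valsAt K {p} c = ⊤ := by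
      obtain ⟨ψ, hψ, hne⟩ := hP p (Finset.mem_insert_self _ _)
      rcases (valsAt_normal K hD {p} c).eq_bot_or_eq_top with h | h
      · exfalso
        apply hne
        have hm : ψ c * (ψ p)⁻¹ ∈ valsAt K {p} c :=
          ⟨ψ * (fun _ => ψ p)⁻¹, K.mul_mem hψ (K.inv_mem (hD _)), by simp, rfl⟩
        rw [h, Subgroup.mem_bot] at hm
        exact mul_inv_eq_one.1 hm
      · exact h
    rcases (valsAt_normal K hD (insert p P) c).eq_bot_or_eq_top with h | h
    · exfalso
      obtain ⟨a, b, hab⟩ := hS
      have ha : a ∈ valsAt K P c := by rw [h1]; trivial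
      have hb : b ∈ valsAt K {p} c := by rw [h2]; trivial
      obtain ⟨φ, hφ, hφP, rfl⟩ := ha
      obtain ⟨ψ, hψ, hψp, rfl⟩ := hb
      have hm : φ c * ψ c * (φ c)⁻¹ * (ψ c)⁻¹ ∈ valsAt K (insert p P) c := by
        refine ⟨φ * ψ * φ⁻¹ * ψ⁻¹,
          K.mul_mem (K.mul_mem (K.mul_mem hφ hψ) (K.inv_mem hφ)) (K.inv_mem hψ), ?_, rfl⟩
        intro q hq
        rcases Finset.mem_insert.1 hq with rfl | hq
        · have := hψp q (by simp)
          simp [this]
        · simp [hφP q hq]
      rw [h, Subgroup.mem_bot] at hm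
      apply hab
      have h3 := mul_inv_eq_one.1 hm
      calc φ c * ψ c = φ c * ψ c * (φ c)⁻¹ * φ c := by group
        _ = ψ c * φ c := by rw [h3]
    · exact h

theorem mem_of_const_on_classes [Finite A] [IsSimpleGroup S] (hS : ∃ a b : S, a * b ≠ b * a)
    (K : Subgroup (A → S)) (hD : ∀ s : S, (fun _ => s) ∈ K) (φ : A → S)
    (hφ : ∀ x y, (∀ ψ ∈ K, ψ x = ψ y) → φ x = φ y) : φ ∈ K := by
  classical
  cases nonempty_fintype A
  -- the class function supported on the class of `c`
  have hdelta : ∀ (c : A) (s : S),
      (fun x => if (∀ ψ ∈ K, ψ c = ψ x) then s else 1) ∈ K := by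
    intro c s
    have h := valsAt_eq_top hS K hD (Finset.univ.filter fun p => ∃ ψ ∈ K, ψ c ≠ ψ p) c
      (by intro p hp; simpa using hp)
    have hs : s ∈ valsAt K (Finset.univ.filter fun p => ∃ ψ ∈ K, ψ c ≠ ψ p) c := by
      rw [h]; trivial
    obtain ⟨χ, hχ, h1, h2⟩ := hs
    have : χ = fun x => if (∀ ψ ∈ K, ψ c = ψ x) then s else 1 := by
      funext x
      split_ifs with hx
      · rw [← hx χ hχ, h2]
      · apply h1
        simp only [not_forall] at hx
        obtain ⟨ψ, hψ, hne⟩ := hx
        simp only [Finset.mem_filter, Finset.mem_univ, true_and]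
        exact ⟨ψ, hψ, hne⟩
    rw [← this]; exact hχ
  have hmain : ∀ P : Finset A,
      (fun x => if ∃ p ∈ P, (∀ ψ ∈ K, ψ p = ψ x) then φ x else 1) ∈ K := by
    intro P
    induction P using Finset.induction_on with
    | empty =>
      have : (fun x : A => if ∃ p ∈ (∅ : Finset A), (∀ ψ ∈ K, ψ p = ψ x) then φ x else 1)
          = (1 : A → S) := by
        funext x; simp
      rw [this]; exact K.one_mem
    | insert q P hq ih =>
      by_cases hex : ∃ p ∈ P, ∀ ψ ∈ K, ψ p = ψ q
      · have : (fun x => if ∃ p ∈ insert q P, (∀ ψ ∈ K, ψ p = ψ x) then φ x else 1)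
            = (fun x => if ∃ p ∈ P, (∀ ψ ∈ K, ψ p = ψ x) then φ x else 1) := by
          funext x
          have : (∃ p ∈ insert q P, (∀ ψ ∈ K, ψ p = ψ x)) ↔
              (∃ p ∈ P, (∀ ψ ∈ K, ψ p = ψ x)) := by
            constructor
            · rintro ⟨p, hp, h⟩
              rcases Finset.mem_insert.1 hp with rfl | hp
              · obtain ⟨r, hr, h'⟩ := hex
                exact ⟨r, hr, fun ψ hψ => (h' ψ hψ).trans (h ψ hψ)⟩
              · exact ⟨p, hp, h⟩
            · rintro ⟨p, hp, h⟩
              exact ⟨p, Finset.mem_insert_of_mem hp, h⟩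
          simp only [this]
        rw [this]; exact ih
      · have : (fun x => if ∃ p ∈ insert q P, (∀ ψ ∈ K, ψ p = ψ x) then φ x else 1)
            = (fun x => if ∃ p ∈ P, (∀ ψ ∈ K, ψ p = ψ x) then φ x else 1) *
              (fun x => if (∀ ψ ∈ K, ψ q = ψ x) then φ q else 1) := by
          funext x
          simp only [Pi.mul_apply]
          by_cases h1 : ∃ p ∈ P, (∀ ψ ∈ K, ψ p = ψ x)
          · have h2 : ¬ (∀ ψ ∈ K, ψ q = ψ x) := by
              intro h
              obtain ⟨r, hr, h'⟩ := h1
              exact hex ⟨r, hr, fun ψ hψ => (h' ψ hψ).trans (h ψ hψ).symm⟩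
            have h3 : ∃ p ∈ insert q P, (∀ ψ ∈ K, ψ p = ψ x) := by
              obtain ⟨r, hr, h'⟩ := h1
              exact ⟨r, Finset.mem_insert_of_mem hr, h'⟩
            rw [if_pos h3, if_pos h1, if_neg h2, mul_one]
          · by_cases h2 : (∀ ψ ∈ K, ψ q = ψ x)
            · have h3 : ∃ p ∈ insert q P, (∀ ψ ∈ K, ψ p = ψ x) :=
                ⟨q, Finset.mem_insert_self _ _, h2⟩
              rw [if_pos h3, if_neg h1, if_pos h2, one_mul]
              exact (hφ q x h2).symm
            · have h3 : ¬ ∃ p ∈ insert q P, (∀ ψ ∈ K, ψ p = ψ x) := by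
                rintro ⟨p, hp, h⟩
                rcases Finset.mem_insert.1 hp with rfl | hp
                · exact h2 h
                · exact h1 ⟨p, hp, h⟩
              rw [if_neg h3, if_neg h1, if_neg h2, one_mul]
        rw [this]
        exact K.mul_mem ih (hdelta q (φ q))
  have h := hmain Finset.univ
  have : (fun x => if ∃ p ∈ (Finset.univ : Finset A), (∀ ψ ∈ K, ψ p = ψ x) then φ x else 1)
      = φ := by
    funext x
    rw [if_pos ⟨x, Finset.mem_univ _, fun _ _ => rfl⟩]
  rwa [this] at h

end Diag

section Dual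

/-- The left coset relation of the subgroup of functions which are constant on the classes
of `θ`. -/
def cosetRel {A S : Type} [Group S] (θ : Setoid A) : Setoid (A → S) where
  r := fun g h => ∀ x y, θ x y → (g x)⁻¹ * h x = (g y)⁻¹ * h y
  iseqv := by
    refine ⟨fun g x y _ => by simp, fun {g h} hgh x y hxy => ?_, fun {g h k} hgh hhk x y hxy => ?_⟩
    · have := hgh x y hxy
      calc (h x)⁻¹ * g x = ((g x)⁻¹ * h x)⁻¹ := by group
        _ = ((g y)⁻¹ * h y)⁻¹ := by rw [this]
        _ = (h y)⁻¹ * g y := by group
    · calc (g x)⁻¹ * k x = ((g x)⁻¹ * h x) * ((h x)⁻¹ * k x) := by group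
        _ = ((g y)⁻¹ * h y) * ((h y)⁻¹ * k y) := by rw [hgh x y hxy, hhk x y hxy]
        _ = (g y)⁻¹ * k y := by group

theorem cosetRel_def {A S : Type} [Group S] (θ : Setoid A) (g h : A → S) :
    cosetRel θ g h ↔ ∀ x y, θ x y → (g x)⁻¹ * h x = (g y)⁻¹ * h y := Iff.rfl

theorem cosetRel_le_iff {A S : Type} [Group S] [Nontrivial S] (θ θ' : Setoid A) :
    cosetRel (S := S) θ ≤ cosetRel θ' ↔ θ' ≤ θ := by
  classical
  constructor
  · intro h x y hxy
    obtain ⟨s, hs⟩ := exists_ne (1 : S)
    by_contra hc
    have h1 : cosetRel (S := S) θ 1 (fun z => if θ x z then s else 1) := by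
      intro a b hab
      have : θ x a ↔ θ x b :=
        ⟨fun h => Setoid.trans' _ h hab, fun h => Setoid.trans' _ h (Setoid.symm' _ hab)⟩
      simp only [Pi.one_apply, inv_one, one_mul, this]
    have h2 := h h1 x y hxy
    have h3 : ¬ θ x y := hc
    simp only [Pi.one_apply, inv_one, one_mul, if_pos (Setoid.refl' θ x), if_neg h3] at h2
    exact hs h2
  · intro h g k hgk x y hxy
    exact hgk x y (h hxy)

theorem alternatingFive_noncomm :
    ∃ a b : alternatingGroup (Fin 5), a * b ≠ b * a := by
  refine ⟨⟨Equiv.swap 0 1 * Equiv.swap 1 2, ?_⟩, ⟨Equiv.swap 0 1 * Equiv.swap 1 3, ?_⟩, ?_⟩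
  · rw [Equiv.Perm.mem_alternatingGroup]; decide
  · rw [Equiv.Perm.mem_alternatingGroup]; decide
  · intro h
    have h1 := congrArg (fun g : alternatingGroup (Fin 5) => (g : Equiv.Perm (Fin 5)) 0) h
    revert h1
    decide

/-- **Duality** (Kurzweil, Netter): the dual of a representable lattice is representable. -/
theorem Representable.dual {L : Type} [PartialOrder L] (h : Representable L) :
    Representable Lᵒᵈ := by
  classical
  obtain ⟨A, hAf, hAn, κ, hκ, hcl⟩ := h.exists_closed
  let S : Type := alternatingGroup (Fin 5)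
  have : IsSimpleGroup S := alternatingGroup.isSimpleGroup (by simp)
  have hS : ∃ a b : S, a * b ≠ b * a := alternatingFive_noncomm
  have : Nontrivial S := IsSimpleGroup.toNontrivial
  let F : Set ((A → S) → (A → S)) :=
    {f | (∃ g : A → S, f = fun φ => g * φ) ∨
      (∃ p : A → A, (∀ l, ∀ x y, κ l x y → κ l (p x) (p y)) ∧ f = fun φ => φ ∘ p)}
  let τ : Setoid (A → S) := cosetRel ⊤
  let g : Lᵒᵈ → {ρ : Setoid (A → S) // τ ≤ ρ ∧ ∀ f ∈ F, ∀ b b', ρ b b' → ρ (f b) (f b')} :=
    fun l => ⟨cosetRel (κ (OrderDual.ofDual l)), (cosetRel_le_iff _ _).2 le_top, by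
      rintro f (⟨g, rfl⟩ | ⟨p, hp, rfl⟩) b b' hb x y hxy
      · have := hb x y hxy
        simpa [mul_assoc] using this
      · exact hb (p x) (p y) (hp _ x y hxy)⟩
  refine representable_of_adm τ F ⟨RelIso.ofSurjective (OrderEmbedding.ofMapLEIff g ?_) ?_⟩
  · intro a b
    show cosetRel (S := S) (κ (OrderDual.ofDual a)) ≤ cosetRel (κ (OrderDual.ofDual b)) ↔ a ≤ b
    rw [cosetRel_le_iff, hκ]
    rfl
  · rintro ⟨ρ, hτ, hF⟩
    let K : Subgroup (A → S) :=
      { carrier := {φ : A → S | ρ (1 : A → S) φ}
        one_mem' := Setoid.refl' _ _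
        mul_mem' := by
          intro a b ha hb
          have h1 : ρ (a * 1) (a * b) := hF _ (Or.inl ⟨a, rfl⟩) _ _ hb
          rw [mul_one] at h1
          exact Setoid.trans' _ ha h1
        inv_mem' := by
          intro a ha
          have h1 : ρ (a⁻¹ * 1) (a⁻¹ * a) := hF _ (Or.inl ⟨a⁻¹, rfl⟩) _ _ ha
          rw [mul_one, inv_mul_cancel] at h1
          exact Setoid.symm' _ h1 }
    have hD : ∀ s : S, (fun _ => s) ∈ K := by
      intro s
      exact hτ (fun x y _ => rfl)
    let θ : Setoid A :=
      { r := fun x y => ∀ ψ ∈ K, ψ x = ψ y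
        iseqv := ⟨fun x ψ _ => rfl, fun h ψ hψ => (h ψ hψ).symm,
          fun h h' ψ hψ => (h ψ hψ).trans (h' ψ hψ)⟩ }
    obtain ⟨l, hl⟩ := hcl θ (by
      intro p hp x y hxy ψ hψ
      have h1 : ρ ((1 : A → S) ∘ p) (ψ ∘ p) := hF _ (Or.inr ⟨p, hp, rfl⟩) _ _ hψ
      exact hxy (ψ ∘ p) h1)
    refine ⟨OrderDual.toDual l, ?_⟩
    apply Subtype.ext
    apply Setoid.ext
    intro a b
    show (∀ x y, κ l x y → (a x)⁻¹ * b x = (a y)⁻¹ * b y) ↔ ρ a b
    rw [hl]
    constructor
    · intro h
      have h1 : a⁻¹ * b ∈ K := mem_of_const_on_classes hS K hD _ h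
      have h2 : ρ (a * 1) (a * (a⁻¹ * b)) := hF _ (Or.inl ⟨a, rfl⟩) _ _ h1
      rw [mul_one, mul_inv_cancel_left] at h2
      exact h2
    · intro h x y hxy
      have h1 : ρ (a⁻¹ * a) (a⁻¹ * b) := hF _ (Or.inl ⟨a⁻¹, rfl⟩) _ _ h
      rw [inv_mul_cancel] at h1
      exact hxy _ h1

end Dual

end Vale.Agent.P183
end

section

/-!
Every representable lattice is the lattice of operator-invariant subgroups of a finite group
containing a given subgroup.
-/

namespace Vale.Agent.P183

/-- Functions which are constant on the classes of `θ`. -/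
def constSub {A S : Type} [Group S] (θ : Setoid A) : Subgroup (A → S) where
  carrier := {φ | ∀ x y, θ x y → φ x = φ y}
  one_mem' := fun _ _ _ => rfl
  mul_mem' := by
    intro a b ha hb x y hxy
    rw [Pi.mul_apply, Pi.mul_apply, ha x y hxy, hb x y hxy]
  inv_mem' := by
    intro a ha x y hxy
    rw [Pi.inv_apply, Pi.inv_apply, ha x y hxy]

theorem constSub_le_iff {A S : Type} [Group S] [Nontrivial S] (θ θ' : Setoid A) :
    constSub (S := S) θ ≤ constSub θ' ↔ θ' ≤ θ := by
  classical
  constructor
  · intro h x y hxy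
    obtain ⟨s, hs⟩ := exists_ne (1 : S)
    by_contra hc
    have h1 : (fun z => if θ x z then s else 1) ∈ constSub (S := S) θ := by
      intro a b hab
      have : θ x a ↔ θ x b :=
        ⟨fun h => Setoid.trans' _ h hab, fun h => Setoid.trans' _ h (Setoid.symm' _ hab)⟩
      simp only [this]
    have h2 := h h1 x y hxy
    have h3 : ¬ θ x y := hc
    simp only [if_pos (Setoid.refl' θ x), if_neg h3] at h2
    exact hs h2
  · intro h φ hφ x y hxy
    exact hφ x y (h hxy)

/-- Composition with a map, as an endomorphism. -/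
def compEnd {A S : Type} [Group S] (p : A → A) : (A → S) →* (A → S) where
  toFun φ := φ ∘ p
  map_one' := rfl
  map_mul' _ _ := rfl

/-- Every representable lattice is the lattice of operator-invariant subgroups above some
subgroup of a finite group with operators. -/
theorem Representable.exists_groupSys {M : Type} [PartialOrder M] (h : Representable M) :
    ∃ (Q : Type) (_ : Group Q) (_ : Finite Q) (Om : Set (Q →* Q)) (P : M → Subgroup Q),
      (∀ a b, P a ≤ P b ↔ a ≤ b) ∧ (∀ w ∈ Om, ∀ m, ∀ q ∈ P m, w q ∈ P m) ∧
      ∀ (m : M) (R : Subgroup Q), P m ≤ R → (∀ w ∈ Om, ∀ q ∈ R, w q ∈ R) → ∃ m', P m' = R := by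
  classical
  obtain ⟨A, hAf, hAn, κ, hκ, hcl⟩ := h.dual.exists_closed
  let S : Type := alternatingGroup (Fin 5)
  have : IsSimpleGroup S := alternatingGroup.isSimpleGroup (by simp)
  have hS : ∃ a b : S, a * b ≠ b * a := alternatingFive_noncomm
  have : Nontrivial S := IsSimpleGroup.toNontrivial
  have hSf : Finite S := inferInstanceAs (Finite (alternatingGroup (Fin 5)))
  refine ⟨A → S, inferInstance, inferInstance,
    {w | ∃ p : A → A, (∀ l, ∀ x y, κ l x y → κ l (p x) (p y)) ∧ w = compEnd p},
    fun m => constSub (κ (OrderDual.toDual m)), ?_, ?_, ?_⟩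
  · intro a b
    show constSub (S := S) (κ (OrderDual.toDual a)) ≤ constSub (κ (OrderDual.toDual b)) ↔ a ≤ b
    rw [constSub_le_iff, hκ]
    rfl
  · rintro _ ⟨p, hp, rfl⟩ m q hq x y hxy
    exact hq _ _ (hp _ _ _ hxy)
  · intro m R hR hinv
    have hD : ∀ s : S, (fun _ => s) ∈ R := by
      intro s
      exact hR (fun x y _ => rfl)
    let θ : Setoid A :=
      { r := fun x y => ∀ ψ ∈ R, ψ x = ψ y
        iseqv := ⟨fun x ψ _ => rfl, fun h ψ hψ => (h ψ hψ).symm,
          fun h h' ψ hψ => (h ψ hψ).trans (h' ψ hψ)⟩ }
    obtain ⟨l, hl⟩ := hcl θ (by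
      intro p hp x y hxy ψ hψ
      exact hxy (ψ ∘ p) (hinv (compEnd p) ⟨p, hp, rfl⟩ ψ hψ))
    refine ⟨OrderDual.ofDual l, ?_⟩
    apply le_antisymm
    · intro φ hφ
      have hφ' : ∀ x y, κ l x y → φ x = φ y := hφ
      rw [hl] at hφ'
      exact mem_of_const_on_classes hS R hD φ hφ'
    · intro φ hφ x y hxy
      have hxy' : κ l x y := hxy
      rw [hl] at hxy'
      exact hxy' φ hφ

end Vale.Agent.P183
end

section

/-!
Lattices with a homomorphism onto a representable lattice all of whose fibres have at most two
elements are representable.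
-/

namespace Vale.Agent.P183

instance finite_setoid {A : Type} [Finite A] : Finite (Setoid A) := by
  classical
  have : Function.Injective (fun (s : Setoid A) (x y : A) => s x y) := by
    intro s t h
    apply Setoid.ext
    intro x y
    exact iff_of_eq (congrFun (congrFun h x) y)
  exact Finite.of_injective _ this

instance Frame.finite_car {A V K L : Type} [PartialOrder K] [PartialOrder L]
    (D : Frame A V K L) [Finite A] [Finite V] [Finite K] : Finite D.Car := by
  have h1 : Finite D.Edge := inferInstanceAs (Finite {p : V × V × K // D.lam (D.lo p.2.2) p.1 p.2.1})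
  have h2 : ∀ e : D.Edge, Finite (Fin 3 × D.Cube e.lab) := fun e => inferInstance
  exact inferInstanceAs (Finite (V ⊕ (Σ e : D.Edge, Fin 3 × D.Cube e.lab)))

/-- Conclusion of the gadget construction. -/
theorem Frame.representable {A V K L : Type} [PartialOrder K] [PartialOrder L]
    (D : Frame A V K L) [Finite A] [Nonempty A] [Finite V] [Nonempty V] [Finite K] [Nonempty K] :
    Representable L := by
  have : Nonempty D.Car := (inferInstance : Nonempty V).map Frame.vx
  exact representable_of_adm D.tieS D.Ops D.orderIso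

section TwoFiber

variable {L K : Type} [Lattice L] [Lattice K]

/-- Both ends of the fibres. -/
theorem exists_lo_hi (f : LatticeHom L K) (hf : Function.Surjective f)
    (h2 : ∀ a b c, f a = f b → f b = f c → a = b ∨ b = c ∨ a = c) :
    ∃ lo hi : K → L, (∀ k, f (lo k) = k) ∧ (∀ k, f (hi k) = k) ∧
      (∀ l, lo (f l) ≤ l) ∧ (∀ l, l ≤ hi (f l)) ∧ ∀ l, l = lo (f l) ∨ l = hi (f l) := by
  have key : ∀ k, ∃ a b, f a = k ∧ f b = k ∧ a ≤ b ∧ ∀ c, f c = k → c = a ∨ c = b := by
    intro k
    obtain ⟨a, ha⟩ := hf k
    by_cases hex : ∃ b, f b = k ∧ b ≠ a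
    · obtain ⟨b, hb, hne⟩ := hex
      have hall : ∀ c, f c = k → c = a ∨ c = b := by
        intro c hc
        rcases h2 a b c (ha.trans hb.symm) (hb.trans hc.symm) with h | h | h
        · exact absurd h.symm hne
        · exact Or.inr h.symm
        · exact Or.inl h.symm
      have hinf : f (a ⊓ b) = k := by rw [map_inf, ha, hb, inf_idem]
      rcases hall _ hinf with h | h
      · exact ⟨a, b, ha, hb, inf_eq_left.1 h, hall⟩
      · exact ⟨b, a, hb, ha, inf_eq_right.1 h, fun c hc => (hall c hc).symm⟩
    · push Not at hex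
      exact ⟨a, a, ha, ha, le_refl _, fun c hc => Or.inl (hex c hc)⟩
  choose lo hi h1 h3 h4 h5 using key
  refine ⟨lo, hi, h1, h3, ?_, ?_, ?_⟩
  · intro l
    rcases h5 _ l rfl with h | h
    · exact h.ge
    · exact (h4 _).trans h.ge
  · intro l
    rcases h5 _ l rfl with h | h
    · exact h.le.trans (h4 _)
    · exact h.le
  · intro l
    exact h5 _ l rfl

/-- the vertex is already merged with the base vertex -/
def TT (hi : K → L) (l : L) : Option K → Prop
  | none => True
  | some c => hi c ≤ l

/-- the vertex lies below -/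
def UU (f : LatticeHom L K) (l : L) : Option K → Prop
  | none => True
  | some c => c ≤ f l

/-- The equivalence on the vertices. -/
def lamTF (f : LatticeHom L K) (hi : K → L) (l : L) : Setoid (Option K) where
  r v v' := v = v' ∨ (UU f l v ∧ UU f l v' ∧ (TT hi l v ↔ TT hi l v'))
  iseqv := by
    refine ⟨fun v => Or.inl rfl, ?_, ?_⟩
    · rintro v v' (h | ⟨h1, h2, h3⟩)
      · exact Or.inl h.symm
      · exact Or.inr ⟨h2, h1, h3.symm⟩
    · rintro v v' v'' (h | ⟨h1, h2, h3⟩) (h' | ⟨h1', h2', h3'⟩)
      · exact Or.inl (h.trans h')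
      · subst h; exact Or.inr ⟨h1', h2', h3'⟩
      · subst h'; exact Or.inr ⟨h1, h2, h3⟩
      · exact Or.inr ⟨h1, h2', h3.trans h3'⟩

theorem lamTF_def (f : LatticeHom L K) (hi : K → L) (l : L) (v v' : Option K) :
    lamTF f hi l v v' ↔ v = v' ∨ (UU f l v ∧ UU f l v' ∧ (TT hi l v ↔ TT hi l v')) := Iff.rfl

/-- **Two-element fibres.** If `f : L → K` is a surjective lattice homomorphism all of whose fibres
have at most two elements and `K` is representable, then `L` is representable. -/
theorem Representable.of_two_fiber (f : LatticeHom L K) (hf : Function.Surjective f)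
    (h2 : ∀ a b c, f a = f b → f b = f c → a = b ∨ b = c ∨ a = c) (hK : Representable K) :
    Representable L := by
  classical
  obtain ⟨A, hAf, hAn, κ, hκ, hcl⟩ := hK.exists_closed
  obtain ⟨lo, hi, hlo, hhi, hlole, hlehi, hfib⟩ := exists_lo_hi f hf h2
  have hfm : Monotone f := fun a b h => by
    rw [← inf_eq_left, ← map_inf, inf_eq_left.2 h]
  have hlo' : ∀ k l, k ≤ f l → lo k ≤ l := by
    intro k l h
    have h1 : f (lo k ⊓ l) = k := by rw [map_inf, hlo, inf_eq_left.2 h]
    have h3 := hlole (lo k ⊓ l)
    rw [h1] at h3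
    exact h3.trans inf_le_right
  have hhi' : ∀ k l, f l ≤ k → l ≤ hi k := by
    intro k l h
    have h1 : f (hi k ⊔ l) = k := by rw [map_sup, hhi, sup_eq_left.2 h]
    have h3 := hlehi (hi k ⊔ l)
    rw [h1] at h3
    exact le_sup_right.trans h3
  have hTU : ∀ l v, TT hi l v → UU f l v := by
    intro l v h
    cases v with
    | none => trivial
    | some c =>
      have h1 : hi c ≤ l := h
      have := hfm h1
      rw [hhi] at this
      exact this
  have hUmono : ∀ l l', l ≤ l' → ∀ v, UU f l v → UU f l' v := by
    intro l l' h v hv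
    cases v with
    | none => trivial
    | some c => exact le_trans hv (hfm h)
  have hTmono : ∀ l l', l ≤ l' → ∀ v, TT hi l v → TT hi l' v := by
    intro l l' h v hv
    cases v with
    | none => trivial
    | some c => exact le_trans hv h
  have hnT : ∀ l l', l ≤ l' → ∀ v, UU f l v → ¬ TT hi l v → (TT hi l' v ↔ hi (f l) ≤ l') := by
    intro l l' h v hU hT
    cases v with
    | none => exact absurd trivial hT
    | some c =>
      have hc : c ≤ f l := hU
      have hn : ¬ hi c ≤ l := hT
      have h1 : f (hi c ⊔ l) = f l := by rw [map_sup, hhi, sup_eq_right.2 hc]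
      have h3 : hi c ⊔ l = hi (f l) := by
        rcases hfib (hi c ⊔ l) with h4 | h4
        · rw [h1] at h4
          exact absurd (le_sup_left.trans (h4.le.trans (hlole l))) hn
        · rw [h1] at h4
          exact h4
      show hi c ≤ l' ↔ hi (f l) ≤ l'
      rw [← h3, sup_le_iff]
      exact ⟨fun h5 => ⟨h5, h⟩, fun h5 => h5.1⟩
  have hsing : ∀ (c : K) (x x' : A), κ c x x' → ∀ l v v', lamTF f hi l v v' →
      κ (f l) (if v = some c then x' else x) (if v' = some c then x' else x) := by
    intro c x x' hx l v v' h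
    rcases h with h | ⟨h1, h3, -⟩
    · subst h; exact Setoid.refl' _ _
    · by_cases hv : v = some c
      · subst hv
        have hc : c ≤ f l := h1
        by_cases hv' : v' = some c
        · subst hv'; exact Setoid.refl' _ _
        · rw [if_pos rfl, if_neg hv']
          exact Setoid.symm' _ ((hκ _ _).2 hc hx)
      · by_cases hv' : v' = some c
        · subst hv'
          have hc : c ≤ f l := h3
          rw [if_neg hv, if_pos rfl]
          exact (hκ _ _).2 hc hx
        · rw [if_neg hv, if_neg hv']
  let D : Frame A (Option K) K L :=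
    { κ := κ
      κ_le := hκ
      κ_closed := hcl
      π := f
      π_mono := hfm
      lo := lo
      π_lo := hlo
      lo_le := hlo'
      lam := lamTF f hi
      lam_mono := by
        intro l l' h v v' hv
        rcases hv with hv | ⟨h1, h3, h4⟩
        · exact Or.inl hv
        · refine Or.inr ⟨hUmono l l' h _ h1, hUmono l l' h _ h3, ?_⟩
          by_cases hT : TT hi l v
          · exact ⟨fun _ => hTmono l l' h _ (h4.1 hT), fun _ => hTmono l l' h _ hT⟩
          · rw [hnT l l' h v h1 hT, hnT l l' h v' h3 (fun h5 => hT (h4.2 h5))]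
      H := ∅
      H_pres := by
        intro h hh
        exact absurd hh (Set.notMem_empty _)
      C23 := by
        intro k ζ hζ _ hg
        have hU : ∀ v v', ζ v v' → v ≠ v' → UU f (lo k) v := by
          intro v v' hv hne
          cases v with
          | none => trivial
          | some c =>
            show c ≤ f (lo k)
            rw [hlo, ← hκ]
            intro x x' hx
            have := hg (fun w => if w = some c then x' else x)
              (fun l v v' h => hsing c x x' hx l v v' h) _ _ hv
            simp only [if_true, if_neg (Ne.symm hne)] at this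
            exact Setoid.symm' _ this
        by_cases hle : ζ ≤ lamTF f hi (lo k)
        · exact ⟨lo k, hlo k, le_antisymm hζ hle⟩
        · have hex : ∃ v v', ζ v v' ∧ ¬ lamTF f hi (lo k) v v' := by
            by_contra hcon
            push Not at hcon
            exact hle (fun v v' hv => hcon v v' hv)
          obtain ⟨v, v', hv, hn⟩ := hex
          have hne : v ≠ v' := fun h => hn (Or.inl h)
          have hUv := hU v v' hv hne
          have hUv' := hU v' v (Setoid.symm' _ hv) (Ne.symm hne)
          have hdiff : ¬ (TT hi (lo k) v ↔ TT hi (lo k) v') := fun h => hn (Or.inr ⟨hUv, hUv', h⟩)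
          have hall : ∀ a, UU f (lo k) a → ζ a v := by
            intro a ha
            by_cases haT : (TT hi (lo k) a ↔ TT hi (lo k) v)
            · exact hζ (Or.inr ⟨ha, hUv, haT⟩)
            · have h3 : (TT hi (lo k) a ↔ TT hi (lo k) v') := by tauto
              exact Setoid.trans' _ (hζ (Or.inr ⟨ha, hUv', h3⟩)) (Setoid.symm' _ hv)
          have hUeq : ∀ a, UU f (hi k) a → UU f (lo k) a := by
            intro a ha
            cases a with
            | none => trivial
            | some c =>
              have h3 : c ≤ f (hi k) := ha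
              show c ≤ f (lo k)
              rw [hlo]; rwa [hhi] at h3
          have hThi : ∀ a, UU f (lo k) a → TT hi (hi k) a := by
            intro a ha
            cases a with
            | none => trivial
            | some c =>
              have h3 : c ≤ f (lo k) := ha
              rw [hlo] at h3
              show hi c ≤ hi k
              apply hhi'
              rwa [hhi]
          refine ⟨hi k, hhi k, le_antisymm ?_ ?_⟩
          · rintro a b (h | ⟨h1, h3, -⟩)
            · subst h; exact Setoid.refl' _ _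
            · exact Setoid.trans' _ (hall a (hUeq a h1)) (Setoid.symm' _ (hall b (hUeq b h3)))
          · intro a b hab
            by_cases h : a = b
            · exact Or.inl h
            · have h1 := hU a b hab h
              have h3 := hU b a (Setoid.symm' _ hab) (Ne.symm h)
              exact Or.inr ⟨hTU _ _ (hThi a h1), hTU _ _ (hThi b h3),
                ⟨fun _ => hThi b h3, fun _ => hThi a h1⟩⟩
      C4 := by
        intro l l' h1 h3
        rcases hfib l with h | h
        · rw [h]; exact hlo' _ _ h1
        · have h4 : lamTF f hi l none (some (f l)) :=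
            Or.inr ⟨trivial, le_refl (f l), ⟨fun _ => h.ge, fun _ => trivial⟩⟩
          rcases h3 h4 with h5 | ⟨-, -, h5⟩
          · exact absurd h5 (by simp)
          · have h6 : hi (f l) ≤ l' := h5.1 trivial
            exact h.le.trans h6 }
  have hKf : Finite K := by
    have hinj : Function.Injective κ := by
      intro a b hab
      exact le_antisymm ((hκ a b).1 hab.le) ((hκ b a).1 hab.ge)
    exact Finite.of_injective κ hinj
  obtain ⟨a⟩ := hAn
  have : Nonempty A := ⟨a⟩
  have hKn : Nonempty K := by
    obtain ⟨k, -⟩ := hcl ⊥ (fun g _ x y hxy => by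
      have hxy' : x = y := hxy
      subst hxy'
      exact Setoid.refl' _ _)
    exact ⟨k⟩
  exact D.representable

end TwoFiber

end Vale.Agent.P183
end

section

/-!
The master theorem: lattices with a homomorphism onto a representable lattice whose fibres are,
coherently, intervals of a second representable lattice, are representable.
-/

namespace Vale.Agent.P183

/-- Least and greatest elements of the fibres of a homomorphism of finite lattices. -/
theorem exists_lo_hi_fin {L K : Type} [Lattice L] [Lattice K] [Finite L] (f : LatticeHom L K)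
    (hf : Function.Surjective f) :
    ∃ lo hi : K → L, (∀ k, f (lo k) = k) ∧ (∀ k, f (hi k) = k) ∧
      (∀ l, lo (f l) ≤ l) ∧ (∀ l, l ≤ hi (f l)) := by
  have h1 : ∀ k, ∃ a, f a = k ∧ ∀ l, f l = k → a ≤ l := by
    intro k
    obtain ⟨a0, ha0⟩ := hf k
    obtain ⟨a, ha, hmin⟩ := (Set.toFinite {l | f l = k}).exists_minimal ⟨a0, ha0⟩
    refine ⟨a, ha, fun l hl => ?_⟩
    have h3 : f (a ⊓ l) = k := by
      rw [map_inf, hl, show f a = k from ha, inf_idem]
    exact (hmin h3 inf_le_left).trans inf_le_right
  have h2 : ∀ k, ∃ a, f a = k ∧ ∀ l, f l = k → l ≤ a := by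
    intro k
    obtain ⟨a0, ha0⟩ := hf k
    obtain ⟨a, ha, hmax⟩ := (Set.toFinite {l | f l = k}).exists_maximal ⟨a0, ha0⟩
    refine ⟨a, ha, fun l hl => ?_⟩
    have h3 : f (a ⊔ l) = k := by
      rw [map_sup, hl, show f a = k from ha, sup_idem]
    exact le_sup_right.trans (hmax h3 le_sup_left)
  choose lo hlo1 hlo2 using h1
  choose hi hhi1 hhi2 using h2
  exact ⟨lo, hi, hlo1, hhi1, fun l => hlo2 _ l rfl, fun l => hhi2 _ l rfl⟩

section Master

variable {L K M : Type} [Lattice L] [Lattice K] [PartialOrder M]

/-- The group of the element `η`. -/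
def GG {Q : Type} [Group Q] (f : L → K) (Vf : K → Subgroup Q) (PQ : L → Subgroup Q) (η : L) :
    Subgroup (Amb K Q) :=
  WN Vf (Set.Iic (f η)) ⊓ (PQ η).comap evalQ

/-- The coset relation on the vertex set. -/
def cosetS {G : Type} [Group G] (W R : Subgroup G) : Setoid W where
  r v v' := v.1⁻¹ * v'.1 ∈ R
  iseqv := by
    refine ⟨fun v => ?_, fun {v v'} h => ?_, fun {v v' v''} h h' => ?_⟩
    · rw [inv_mul_cancel]; exact one_mem _
    · have h1 := R.inv_mem h
      rwa [mul_inv_rev, inv_inv] at h1
    · have h1 := R.mul_mem h h'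
      rwa [mul_assoc, mul_inv_cancel_left] at h1

theorem cosetS_def {G : Type} [Group G] {W R : Subgroup G} {v v' : W} :
    cosetS W R v v' ↔ v.1⁻¹ * v'.1 ∈ R := Iff.rfl

/-- **Master theorem.** Let `f : L → K` be a surjective homomorphism of finite lattices and
`P : L → M` an order preserving map such that `(f, P)` is an order embedding and `P` maps every
fibre of `f` onto an interval of `M`.  If `K` and `M` are representable then so is `L`. -/
theorem Representable.master (f : LatticeHom L K) (hf : Function.Surjective f) (P : L → M)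
    (hP : Monotone P) (hemb : ∀ a b, f a ≤ f b → P a ≤ P b → a ≤ b)
    (hint : ∀ a b m, f a = f b → P a ≤ m → m ≤ P b → ∃ c, f c = f a ∧ P c = m)
    (hK : Representable K) (hM : Representable M) : Representable L := by
  classical
  obtain ⟨A, hAf, hAn, κ, hκ, hcl⟩ := hK.exists_closed
  obtain ⟨Q, hQg, hQf, Om, PM, hPM, hOm, hPMcl⟩ := hM.exists_groupSys
  have hKf : Finite K := by
    have hinj : Function.Injective κ := by
      intro a b hab
      exact le_antisymm ((hκ a b).1 hab.le) ((hκ b a).1 hab.ge)
    exact Finite.of_injective κ hinj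
  have hMf : Finite M := by
    have hinj : Function.Injective PM := by
      intro a b hab
      exact le_antisymm ((hPM a b).1 hab.le) ((hPM b a).1 hab.ge)
    exact Finite.of_injective PM hinj
  have hLf : Finite L := by
    have hinj : Function.Injective (fun l => (f l, P l)) := by
      intro a b hab
      have h1 : f a = f b := congrArg Prod.fst hab
      have h2 : P a = P b := congrArg Prod.snd hab
      exact le_antisymm (hemb a b h1.le h2.le) (hemb b a h1.ge h2.ge)
    exact Finite.of_injective _ hinj
  obtain ⟨lo, hi, hlo, hhi, hlole, hlehi⟩ := exists_lo_hi_fin f hf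
  have hfm : Monotone f := fun a b h => by
    rw [← inf_eq_left, ← map_inf, inf_eq_left.2 h]
  have hlo' : ∀ k l, k ≤ f l → lo k ≤ l := by
    intro k l h
    have h1 : f (lo k ⊓ l) = k := by rw [map_inf, hlo, inf_eq_left.2 h]
    have h3 := hlole (lo k ⊓ l)
    rw [h1] at h3
    exact h3.trans inf_le_right
  have hhi' : ∀ k l, f l ≤ k → l ≤ hi k := by
    intro k l h
    have h1 : f (hi k ⊔ l) = k := by rw [map_sup, hhi, sup_eq_left.2 h]
    have h3 := hlehi (hi k ⊔ l)
    rw [h1] at h3
    exact le_sup_right.trans h3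
  have hhim : Monotone hi := fun a b h => hhi' b (hi a) (by rw [hhi]; exact h)
  let PQ : L → Subgroup Q := fun l => PM (P l)
  have hPQm : Monotone PQ := fun a b h => (hPM _ _).2 (hP h)
  let Vf : K → Subgroup Q := fun k => PQ (hi k)
  let W : Subgroup (Amb K Q) := WN Vf Set.univ
  have hOmV : ∀ w ∈ Om, ∀ c, ∀ q ∈ Vf c, w q ∈ Vf c := fun w hw c q hq => hOm w hw _ q hq
  have hWle : ∀ N : Set K, WN Vf N ≤ W := fun N => WN_mono (Set.subset_univ N)
  have hev : ∀ k, ∀ w ∈ WN Vf (Set.Iic k), evalQ w ∈ Vf k := by
    intro k w hw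
    exact evalQ_mem (fun c hc => hPQm (hhim hc)) hw
  let act : (w : Q →* Q) → (hw : w ∈ Om) → W → W := fun w hw v =>
    ⟨opA w v.1, opA_mem (hOmV w hw) v.2⟩
  let D : Frame A W K L :=
    { κ := κ
      κ_le := hκ
      κ_closed := hcl
      π := f
      π_mono := hfm
      lo := lo
      π_lo := hlo
      lo_le := hlo'
      lam := fun η => cosetS W (GG f Vf PQ η)
      lam_mono := by
        intro a b hab v v' h
        exact ⟨WN_mono (Set.Iic_subset_Iic.2 (hfm hab)) h.1, hPQm hab h.2⟩
      H := {h | (∃ u : W, h = fun v => u * v) ∨ ∃ w, ∃ hw : w ∈ Om, h = act w hw}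
      H_pres := by
        rintro h (⟨u, rfl⟩ | ⟨w, hw, rfl⟩) l v v' hv
        · show (u.1 * v.1)⁻¹ * (u.1 * v'.1) ∈ _
          rw [mul_inv_rev, mul_assoc, inv_mul_cancel_left]
          exact hv
        · show (opA w v.1)⁻¹ * opA w v'.1 ∈ _
          rw [← map_inv, ← map_mul]
          refine ⟨opA_mem (hOmV w hw) hv.1, ?_⟩
          show evalQ (opA w (v.1⁻¹ * v'.1)) ∈ PQ l
          rw [evalQ_opA hv.1]
          exact hOm w hw _ _ hv.2
      C23 := by
        intro k ζ hζ hH hg
        have hleft : ∀ u v v' : W, ζ v v' → ζ (u * v) (u * v') :=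
          fun u v v' h => hH _ (Or.inl ⟨u, rfl⟩) v v' h
        let Z : Subgroup W :=
          { carrier := {v | ζ 1 v}
            one_mem' := Setoid.refl' _ _
            mul_mem' := by
              intro a b ha hb
              have h1 := hleft a 1 b hb
              rw [mul_one] at h1
              exact Setoid.trans' _ ha h1
            inv_mem' := by
              intro a ha
              have h1 := hleft a⁻¹ 1 a ha
              rw [mul_one, inv_mul_cancel] at h1
              exact Setoid.symm' _ h1 }
        have hZ : ∀ v v', ζ v v' ↔ v⁻¹ * v' ∈ Z := by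
          intro v v'
          constructor
          · intro h
            have h1 := hleft v⁻¹ v v' h
            rw [inv_mul_cancel] at h1
            exact h1
          · intro h
            have h1 := hleft v 1 _ h
            rw [mul_one, mul_inv_cancel_left] at h1
            exact h1
        -- separation
        have hsep : ∀ w : W, w ∈ Z → w.1 ∈ WN Vf (Set.Iic k) := by
          intro w hw
          have hpair : ∀ p : A × A, ¬ κ k p.1 p.2 → w.1 ∈ WN Vf {χ | ¬ κ χ p.1 p.2} := by
            intro p hp
            by_contra hnot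
            let N : Set K := {χ | ¬ κ χ p.1 p.2}
            let g : W → A := fun v => if w.1⁻¹ * v.1 ∈ WN Vf N then p.2 else p.1
            have hgood : ∀ l x y, cosetS W (GG f Vf PQ l) x y → κ (f l) (g x) (g y) := by
              intro l x y hxy
              by_cases hc : κ (f l) p.1 p.2
              · show κ (f l) (if _ then _ else _) (if _ then _ else _)
                split_ifs
                · exact Setoid.refl' _ _
                · exact Setoid.symm' _ hc
                · exact hc
                · exact Setoid.refl' _ _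
              · have hsub : (Set.Iic (f l)) ⊆ N := fun χ hχ h => hc ((hκ _ _).2 hχ h)
                have hxy1 : x.1⁻¹ * y.1 ∈ WN Vf N := WN_mono hsub hxy.1
                have hiff : w.1⁻¹ * x.1 ∈ WN Vf N ↔ w.1⁻¹ * y.1 ∈ WN Vf N := by
                  constructor
                  · intro h
                    have h1 := mul_mem h hxy1
                    rwa [mul_assoc, mul_inv_cancel_left] at h1
                  · intro h
                    have h1 := mul_mem h (inv_mem hxy1)
                    rwa [mul_inv_rev, inv_inv, mul_assoc, mul_inv_cancel_left] at h1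
                have : g x = g y := by
                  show (if _ then _ else _) = (if _ then _ else _)
                  simp only [hiff]
                rw [this]
            have h1 := hg g hgood 1 w hw
            have h2 : g w = p.2 := by
              show (if _ then _ else _) = _
              rw [if_pos]
              rw [inv_mul_cancel]
              exact one_mem _
            have h3 : g 1 = p.1 := by
              show (if _ then _ else _) = _
              rw [if_neg]
              intro h
              apply hnot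
              have h4 := inv_mem h
              rwa [mul_inv_rev, inv_inv, OneMemClass.coe_one, inv_one, one_mul] at h4
            rw [h2, h3] at h1
            exact hp h1
          cases nonempty_fintype A
          have h1 := WN_finset (fun p : A × A => {χ | ¬ κ χ p.1 p.2}) w.2
            (Finset.univ.filter fun p : A × A => ¬ κ k p.1 p.2)
            (fun p hp => hpair p (Finset.mem_filter.1 hp).2)
          refine WN_mono ?_ h1
          intro c hc
          rw [Set.mem_Iic, ← hκ]
          intro x y hxy
          by_contra hnot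
          exact hc (x, y) (Finset.mem_filter.2 ⟨Finset.mem_univ _, hnot⟩) hxy
        have hloZ : ∀ w : W, w.1 ∈ GG f Vf PQ (lo k) → w ∈ Z := by
          intro w hw
          apply hζ
          show (1 : W).1⁻¹ * w.1 ∈ _
          rw [OneMemClass.coe_one, inv_one, one_mul]
          exact hw
        -- the image of `Z`
        let R : Subgroup Q := Z.map (evalQ.comp W.subtype)
        have hR1 : PQ (lo k) ≤ R := by
          intro q hq
          have hq' : q ∈ Vf k := hPQm (hlo' k (hi k) (by rw [hhi])) hq
          have hmem : gen k q ∈ WN Vf (Set.Iic k) := gen_mem (Set.mem_Iic.2 (le_refl k)) hq'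
          refine ⟨⟨gen k q, hWle _ hmem⟩, hloZ _ ⟨?_, hq⟩, rfl⟩
          rw [hlo]
          exact hmem
        have hR2 : R ≤ PQ (hi k) := by
          rintro _ ⟨w, hw, rfl⟩
          exact hev k _ (hsep w hw)
        have hR3 : ∀ w ∈ Om, ∀ q ∈ R, w q ∈ R := by
          rintro w hw _ ⟨v, hv, rfl⟩
          refine ⟨act w hw v, ?_, evalQ_opA v.2⟩
          have h1 := hH _ (Or.inr ⟨w, hw, rfl⟩) 1 v hv
          have h2 : act w hw 1 = 1 := Subtype.ext (map_one (opA w))
          rw [h2] at h1
          exact h1
        obtain ⟨m, hm⟩ := hPMcl (P (lo k)) R hR1 hR3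
        have hm1 : P (lo k) ≤ m := (hPM _ _).1 (hm.symm ▸ hR1)
        have hm2 : m ≤ P (hi k) := (hPM _ _).1 (hm.symm ▸ hR2)
        obtain ⟨η, hη1, hη2⟩ := hint (lo k) (hi k) m (by rw [hlo, hhi]) hm1 hm2
        rw [hlo] at hη1
        have hPQη : PQ η = R := by
          show PM (P η) = R
          rw [hη2, hm]
        refine ⟨η, hη1, ?_⟩
        apply Setoid.ext
        intro v v'
        rw [hZ]
        show v.1⁻¹ * v'.1 ∈ GG f Vf PQ η ↔ _
        obtain ⟨z, hz⟩ : ∃ z : W, z = v⁻¹ * v' := ⟨_, rfl⟩
        have hz1 : v.1⁻¹ * v'.1 = z.1 := by rw [hz]; rfl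
        rw [hz1, ← hz]
        constructor
        · rintro ⟨h1, h2⟩
          rw [hη1] at h1
          have h3 : evalQ z.1 ∈ R := by rw [← hPQη]; exact h2
          obtain ⟨z', hz', hz'2⟩ := h3
          have hz'3 : evalQ z'.1 = evalQ z.1 := hz'2
          have h4 : z'⁻¹ * z ∈ Z := by
            apply hloZ
            refine ⟨?_, ?_⟩
            · rw [hlo]
              exact (WN Vf (Set.Iic k)).mul_mem ((WN Vf (Set.Iic k)).inv_mem (hsep z' hz')) h1
            · show evalQ (z'.1⁻¹ * z.1) ∈ PQ (lo k)
              rw [map_mul, map_inv, hz'3, inv_mul_cancel]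
              exact one_mem _
          have h5 := mul_mem hz' h4
          rwa [mul_inv_cancel_left] at h5
        · intro h
          refine ⟨?_, ?_⟩
          · rw [hη1]
            exact hsep z h
          · show evalQ z.1 ∈ PQ η
            rw [hPQη]
            exact ⟨z, h, rfl⟩
      C4 := by
        intro a b hab hle
        apply hemb a b hab
        rw [← hPM]
        intro q hq
        have hq' : q ∈ Vf (f a) := hPQm (hlehi a) hq
        have hmem : gen (f a) q ∈ WN Vf (Set.Iic (f a)) :=
          gen_mem (Set.mem_Iic.2 (le_refl _)) hq'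
        have h1 : cosetS W (GG f Vf PQ a) 1 ⟨gen (f a) q, hWle _ hmem⟩ := by
          show (1 : W).1⁻¹ * gen (f a) q ∈ _
          rw [OneMemClass.coe_one, inv_one, one_mul]
          exact ⟨hmem, hq⟩
        have h2 := hle h1
        have h3 : (1 : W).1⁻¹ * gen (f a) q ∈ GG f Vf PQ b := h2
        rw [OneMemClass.coe_one, inv_one, one_mul] at h3
        exact h3.2 }
  have hLn : Nonempty K := by
    by_contra hcon
    rw [not_nonempty_iff] at hcon
    obtain ⟨k, -⟩ := hcl ⊤ (fun f _ x y _ => trivial)
    exact hcon.elim k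
  have hWn : Nonempty W := ⟨1⟩
  have hAmb : Finite (Amb K Q) := inferInstance
  exact D.representable

end Master

end Vale.Agent.P183
end

section

/-!
Inflation of a convex subset by a lattice (Day's doubling is the case of the two-element chain).
-/

namespace Vale.Agent.P183

/-- The underlying element of `K`. -/
def Inflate.base {K S : Type} {C : Set K} : Inflate K S C → K
  | Sum.inl a => a.1
  | Sum.inr p => p.1.1

section

variable {K S : Type} [PartialOrder K] [PartialOrder S] {C : Set K}

theorem Inflate.le_base {x y : Inflate K S C} (h : x ≤ y) : x.base ≤ y.base := by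
  rcases x with a | p <;> rcases y with b | q
  · exact h
  · exact h
  · exact h
  · exact h.1

/-- The order of an inflation of a convex set is a partial order. -/
@[reducible] def Inflate.partialOrder (hC : C.OrdConnected) : PartialOrder (Inflate K S C) where
  le := (· ≤ ·)
  le_refl x := by
    rcases x with a | p
    · exact le_refl a.1
    · exact ⟨le_refl _, le_refl _⟩
  le_trans x y z hxy hyz := by
    rcases x with a | p <;> rcases y with b | q <;> rcases z with c | r
    · exact le_trans (α := K) hxy hyz
    · exact le_trans (α := K) hxy hyz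
    · exact le_trans (α := K) hxy hyz
    · exact le_trans (α := K) hxy hyz.1
    · exact le_trans (α := K) hxy hyz
    · exact absurd (hC.out p.1.2 r.1.2 ⟨hxy, hyz⟩) b.2
    · exact le_trans (α := K) hxy.1 hyz
    · exact ⟨le_trans hxy.1 hyz.1, le_trans hxy.2 hyz.2⟩
  le_antisymm x y hxy hyx := by
    rcases x with a | p <;> rcases y with b | q
    · exact congrArg Sum.inl (Subtype.ext (le_antisymm (α := K) hxy hyx))
    · have h : a.1 = q.1.1 := le_antisymm (α := K) hxy hyx
      exact absurd (h ▸ q.1.2) a.2
    · have h : p.1.1 = b.1 := le_antisymm (α := K) hxy hyx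
      exact absurd (h ▸ p.1.2) b.2
    · exact congrArg Sum.inr (Prod.ext (Subtype.ext (le_antisymm hxy.1 hyx.1))
        (le_antisymm hxy.2 hyx.2))

/-- The vertices' equivalence attached to an element of the inflation. -/
def lamI {Y : Type} (σ : S → Setoid Y) (l : Inflate K S C) : Setoid (Y × {k : K // k ∈ C}) where
  r v v' := v = v' ∨ (v.2.1 ≤ l.base ∧ v'.2.1 ≤ l.base ∧
    match l with
    | Sum.inl _ => True
    | Sum.inr p => σ p.2 v.1 v'.1)
  iseqv := by
    refine ⟨fun v => Or.inl rfl, ?_, ?_⟩
    · rintro v v' (h | ⟨h1, h2, h3⟩)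
      · exact Or.inl h.symm
      · refine Or.inr ⟨h2, h1, ?_⟩
        rcases l with a | p
        · trivial
        · exact Setoid.symm' _ h3
    · rintro v v' v'' (h | ⟨h1, h2, h3⟩) (h' | ⟨h1', h2', h3'⟩)
      · exact Or.inl (h.trans h')
      · subst h; exact Or.inr ⟨h1', h2', h3'⟩
      · subst h'; exact Or.inr ⟨h1, h2, h3⟩
      · refine Or.inr ⟨h1, h2', ?_⟩
        rcases l with a | p
        · trivial
        · exact Setoid.trans' _ h3 h3'

omit [PartialOrder S] in
theorem lamI_inl {Y : Type} (σ : S → Setoid Y) (a : {k : K // k ∉ C})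
    (v v' : Y × {k : K // k ∈ C}) :
    lamI σ (Sum.inl a : Inflate K S C) v v' ↔ v = v' ∨ (v.2.1 ≤ a.1 ∧ v'.2.1 ≤ a.1) := by
  constructor
  · rintro (h | ⟨h1, h2, -⟩)
    · exact Or.inl h
    · exact Or.inr ⟨h1, h2⟩
  · rintro (h | ⟨h1, h2⟩)
    · exact Or.inl h
    · exact Or.inr ⟨h1, h2, trivial⟩

omit [PartialOrder S] in
theorem lamI_inr {Y : Type} (σ : S → Setoid Y) (p : {k : K // k ∈ C} × S)
    (v v' : Y × {k : K // k ∈ C}) :
    lamI σ (Sum.inr p : Inflate K S C) v v' ↔
      v = v' ∨ (v.2.1 ≤ p.1.1 ∧ v'.2.1 ≤ p.1.1 ∧ σ p.2 v.1 v'.1) := Iff.rfl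

theorem representable_inflate_aux (hC : C.OrdConnected) (hne : C.Nonempty)
    (hK : Representable K) (hS : Representable S) : Representable (Inflate K S C) := by
  classical
  let _ : PartialOrder (Inflate K S C) := Inflate.partialOrder hC
  obtain ⟨A, hAf, hAn, κ, hκ, hcl⟩ := hK.exists_closed
  obtain ⟨Y, hYf, hYn, σ, hσ, hscl⟩ := hS.exists_closed
  obtain ⟨s0, hs0⟩ := hscl ⊥ (fun g _ x y hxy => by
      have hxy' : x = y := hxy
      subst hxy'
      exact Setoid.refl' _ _)
  have hs0' : ∀ s, s0 ≤ s := fun s => by rw [← hσ, hs0]; exact bot_le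
  let lo : K → Inflate K S C := fun k => if h : k ∈ C then Sum.inr (⟨k, h⟩, s0) else Sum.inl ⟨k, h⟩
  have hlo_in : ∀ k (h : k ∈ C), lo k = Sum.inr (⟨k, h⟩, s0) := fun k h => dif_pos h
  have hlo_out : ∀ k (h : k ∉ C), lo k = Sum.inl ⟨k, h⟩ := fun k h => dif_neg h
  have hπlo : ∀ k, (lo k).base = k := by
    intro k
    by_cases h : k ∈ C
    · rw [hlo_in k h]; rfl
    · rw [hlo_out k h]; rfl
  have hsing : ∀ (w : Y × {k : K // k ∈ C}) (x x' : A), κ w.2.1 x x' →
      ∀ (l : Inflate K S C) v v', lamI σ l v v' →
      κ l.base (if v = w then x' else x) (if v' = w then x' else x) := by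
    intro w x x' hx l v v' h
    rcases h with h | ⟨h1, h3, -⟩
    · subst h; exact Setoid.refl' _ _
    · by_cases hv : v = w
      · subst hv
        by_cases hv' : v' = v
        · subst hv'; exact Setoid.refl' _ _
        · rw [if_pos rfl, if_neg hv']
          exact Setoid.symm' _ ((hκ _ _).2 h1 hx)
      · by_cases hv' : v' = w
        · subst hv'
          rw [if_neg hv, if_pos rfl]
          exact (hκ _ _).2 h3 hx
        · rw [if_neg hv, if_neg hv']
  let D : Frame A (Y × {k : K // k ∈ C}) K (Inflate K S C) :=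
    { κ := κ
      κ_le := hκ
      κ_closed := hcl
      π := Inflate.base
      π_mono := fun x y h => Inflate.le_base h
      lo := lo
      π_lo := hπlo
      lo_le := by
        intro k l h
        by_cases hk : k ∈ C
        · rw [hlo_in k hk]
          rcases l with b | q
          · exact h
          · exact ⟨h, hs0' _⟩
        · rw [hlo_out k hk]
          rcases l with b | q
          · exact h
          · exact h
      lam := lamI σ
      lam_mono := by
        intro l l' h v v' hv
        have hb : l.base ≤ l'.base := Inflate.le_base h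
        rcases hv with hv | ⟨h1, h3, h4⟩
        · exact Or.inl hv
        · refine Or.inr ⟨h1.trans hb, h3.trans hb, ?_⟩
          rcases l with a | p <;> rcases l' with b | q
          · trivial
          · exact absurd (hC.out v.2.2 q.1.2 ⟨h1, hb⟩) a.2
          · trivial
          · exact (hσ _ _).2 h.2 h4
      H := {g | ∃ u : Y → Y, (∀ s, ∀ x y, σ s x y → σ s (u x) (u y)) ∧
        g = fun v => (u v.1, v.2)}
      H_pres := by
        rintro g ⟨u, hu, rfl⟩ l v v' (hv | ⟨h1, h3, h4⟩)
        · subst hv; exact Or.inl rfl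
        · refine Or.inr ⟨h1, h3, ?_⟩
          rcases l with a | p
          · trivial
          · exact hu _ _ _ h4
      C23 := by
        intro k ζ hζ hH hg
        have hU : ∀ v v', ζ v v' → v ≠ v' → v.2.1 ≤ k := by
          intro v v' hv hne
          rw [← hκ]
          intro x x' hx
          have := hg (fun w => if w = v then x' else x)
            (fun l v1 v2 h => hsing v x x' hx l v1 v2 h) _ _ hv
          simp only [if_true, if_neg (Ne.symm hne)] at this
          exact Setoid.symm' _ this
        by_cases hk : k ∈ C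
        · rw [hlo_in k hk] at hζ
          have hmove : ∀ (y : Y) (c : {k : K // k ∈ C}), c.1 ≤ k → ζ (y, c) (y, ⟨k, hk⟩) := by
            intro y c hc
            exact hζ (Or.inr ⟨hc, le_refl _, Setoid.refl' _ _⟩)
          obtain ⟨s, hs⟩ := hscl (Setoid.comap (fun y => (y, (⟨k, hk⟩ : {k : K // k ∈ C}))) ζ) (by
            intro u hu x y hxy
            exact hH (fun v => (u v.1, v.2)) ⟨u, hu, rfl⟩ _ _ hxy)
          refine ⟨Sum.inr (⟨k, hk⟩, s), rfl, le_antisymm ?_ ?_⟩
          · rintro ⟨y, c⟩ ⟨y', c'⟩ (h | ⟨h1, h3, h4⟩)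
            · rw [h]
            · change σ s y y' at h4
              rw [hs] at h4
              exact Setoid.trans' _ (hmove y c h1)
                (Setoid.trans' _ h4 (Setoid.symm' _ (hmove y' c' h3)))
          · rintro ⟨y, c⟩ ⟨y', c'⟩ h
            by_cases hne : ((y, c) : Y × {k : K // k ∈ C}) = (y', c')
            · exact Or.inl hne
            · have h1 : c.1 ≤ k := hU _ _ h hne
              have h3 : c'.1 ≤ k := hU _ _ (Setoid.symm' _ h) (Ne.symm hne)
              refine Or.inr ⟨h1, h3, ?_⟩
              show σ s y y'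
              rw [hs]
              show ζ (y, ⟨k, hk⟩) (y', ⟨k, hk⟩)
              exact Setoid.trans' _ (Setoid.symm' _ (hmove y c h1))
                (Setoid.trans' _ h (hmove y' c' h3))
        · refine ⟨Sum.inl ⟨k, hk⟩, rfl, le_antisymm ?_ ?_⟩
          · rw [hlo_out k hk] at hζ
            exact hζ
          · intro v v' h
            by_cases hne : v = v'
            · exact Or.inl hne
            · exact Or.inr ⟨hU _ _ h hne, hU _ _ (Setoid.symm' _ h) (Ne.symm hne), trivial⟩
      C4 := by
        intro l l' h1 h3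
        rcases l with a | p <;> rcases l' with b | q
        · exact h1
        · exact h1
        · exact h1
        · refine ⟨h1, ?_⟩
          rw [← hσ]
          intro y y' hy
          have h4 : lamI σ (Sum.inr p : Inflate K S C) (y, p.1) (y', p.1) :=
            Or.inr ⟨le_refl _, le_refl _, hy⟩
          rcases h3 h4 with h5 | ⟨-, -, h5⟩
          · have h6 : y = y' := congrArg Prod.fst h5
            subst h6
            exact Setoid.refl' _ _
          · exact h5 }
  have hKf : Finite K := by
    have hinj : Function.Injective κ := by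
      intro a b hab
      exact le_antisymm ((hκ a b).1 hab.le) ((hκ b a).1 hab.ge)
    exact Finite.of_injective κ hinj
  obtain ⟨c, hc⟩ := hne
  have : Nonempty K := ⟨c⟩
  have : Nonempty {k : K // k ∈ C} := ⟨⟨c, hc⟩⟩
  exact D.representable

/-- **Inflation.** If `K` and `S` are representable and `C ⊆ K` is convex, then the poset obtained
from `K` by replacing every element of `C` by a copy of `S` is representable. -/
theorem Representable.inflate (hC : C.OrdConnected)
    (hK : Representable K) (hS : Representable S) : Representable (Inflate K S C) := by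
  by_cases hne : C.Nonempty
  · exact representable_inflate_aux hC hne hK hS
  · rw [Set.not_nonempty_iff_eq_empty] at hne
    subst hne
    refine Representable.of_iso ?_ hK
    refine { toFun := Inflate.base, invFun := fun k => Sum.inl ⟨k, fun h => h⟩, left_inv := ?_,
             right_inv := ?_, map_rel_iff' := ?_ }
    · rintro (a | p)
      · rfl
      · exact absurd p.1.2 (Set.notMem_empty _)
    · intro k; rfl
    · rintro (a | p) (b | q)
      · exact Iff.rfl
      · exact absurd q.1.2 (Set.notMem_empty _)
      · exact absurd p.1.2 (Set.notMem_empty _)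
      · exact absurd p.1.2 (Set.notMem_empty _)

end

end Vale.Agent.P183
end

section

/-!
Congruence normal lattices are representable.
-/

namespace Vale.Agent.P183

/-- The algebra without operations. -/
def bareAlgebra (X : Type) [Finite X] [Nonempty X] : FiniteAlgebra where
  carrier := X
  index := Empty
  arity := fun i => i.elim
  op := fun i => i.elim
  finite_carrier := inferInstance
  nonempty_carrier := inferInstance
  finite_index := inferInstance

theorem representable_unique (L : Type) [PartialOrder L] [Unique L] : Representable L := by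
  refine ⟨bareAlgebra Unit, ⟨?_⟩⟩
  refine { toFun := fun _ => ⟨⊤, fun i => i.elim⟩, invFun := fun _ => default, left_inv := ?_,
           right_inv := ?_, map_rel_iff' := ?_ }
  · intro x
    exact Subsingleton.elim _ _
  · intro r
    apply Subtype.ext
    apply Setoid.ext
    intro a b
    have hab : a = b := Subsingleton.elim (α := Unit) a b
    subst hab
    exact iff_of_true (Setoid.refl' _ _) (Setoid.refl' _ _)
  · intro a b
    have hab : a = b := Subsingleton.elim _ _
    subst hab
    exact iff_of_true (le_refl _) (le_refl _)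

theorem representable_bool : Representable Bool := by
  refine ⟨bareAlgebra Bool, ⟨?_⟩⟩
  let g : Bool → (bareAlgebra Bool).Con := fun b =>
    ⟨{ r := fun x y => x = y ∨ b = true
       iseqv := ⟨fun _ => Or.inl rfl, fun h => h.elim (fun h => Or.inl h.symm) Or.inr,
         fun h h' => h.elim (fun h => h'.elim (fun h' => Or.inl (h.trans h')) Or.inr) Or.inr⟩ },
      fun i => i.elim⟩
  refine RelIso.ofSurjective (OrderEmbedding.ofMapLEIff g ?_) ?_
  · intro a b
    constructor
    · intro h
      cases a with
      | false => exact Bool.false_le _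
      | true =>
        rcases h (show (g true).1 false true from Or.inr rfl) with h1 | h1
        · exact absurd h1 Bool.false_ne_true
        · rw [h1]
    · intro h x y hxy
      rcases hxy with h1 | h1
      · exact Or.inl h1
      · subst h1
        exact Or.inr (Bool.le_iff_imp.1 h rfl)
  · rintro ⟨r, hr⟩
    by_cases h : r false true
    · refine ⟨true, Subtype.ext (Setoid.ext fun x y => ?_)⟩
      refine iff_of_true (Or.inr rfl) ?_
      cases x <;> cases y
      · exact Setoid.refl' _ _
      · exact h
      · exact Setoid.symm' _ h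
      · exact Setoid.refl' _ _
    · refine ⟨false, Subtype.ext (Setoid.ext fun x y => ?_)⟩
      constructor
      · rintro (h1 | h1)
        · subst h1; exact Setoid.refl' _ _
        · exact absurd h1 Bool.false_ne_true
      · intro h1
        cases x <;> cases y
        · exact Or.inl rfl
        · exact absurd h1 h
        · exact absurd (Setoid.symm' _ h1) h
        · exact Or.inl rfl

/-- Every finite congruence normal lattice is representable. -/
theorem CongruenceNormal.representable {L : Type} [PartialOrder L] (h : CongruenceNormal L) :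
    Representable L := by
  induction h with
  | point L => exact representable_unique L
  | double L K C hC e hK ih => exact Representable.of_iso e (Representable.inflate hC ih
      representable_bool)

end Vale.Agent.P183
end

section

/-!
The class of representable lattices is closed under subdirect products and intervals.
-/

namespace Vale.Agent.P183

theorem Representable.nonempty {L : Type} [PartialOrder L] (h : Representable L) : Nonempty L := by
  obtain ⟨A, ⟨e⟩⟩ := h
  exact ⟨e.symm ⟨⊤, fun _ _ _ _ => trivial⟩⟩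

/-- A monotone map between lattices that preserves infima reflects the order if it is injective
together with a second such map. -/
theorem le_of_hom_le {L K S : Type} [Lattice L] [Lattice K] [Lattice S] (f : LatticeHom L K)
    (g : LatticeHom L S) (hinj : ∀ a b, f a = f b → g a = g b → a = b) (a b : L)
    (h1 : f a ≤ f b) (h2 : g a ≤ g b) : a ≤ b := by
  have h : a ⊓ b = a := by
    apply hinj
    · rw [map_inf, inf_eq_left.2 h1]
    · rw [map_inf, inf_eq_left.2 h2]
  exact inf_eq_left.1 h

/-- **Subdirect products.** A subdirect product of two representable lattices is representable. -/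
theorem Representable.subdirect {L K S : Type} [Lattice L] [Lattice K] [Lattice S]
    (f : LatticeHom L K) (g : LatticeHom L S) (hf : Function.Surjective f)
    (hg : Function.Surjective g) (hinj : ∀ a b, f a = f b → g a = g b → a = b)
    (hK : Representable K) (hS : Representable S) : Representable L := by
  refine Representable.master f hf g (OrderHomClass.mono g) (le_of_hom_le f g hinj) ?_ hK hS
  intro a b m hab h1 h2
  obtain ⟨c, rfl⟩ := hg m
  refine ⟨(b ⊓ c) ⊔ a, ?_, ?_⟩
  · rw [map_sup, map_inf, hab]
    exact sup_eq_right.2 inf_le_left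
  · rw [map_sup, map_inf, inf_eq_right.2 h2, sup_eq_left.2 h1]

/-- The image of a homomorphism. -/
def imS {L K : Type} [Lattice L] [Lattice K] (f : LatticeHom L K) : Sublattice K where
  carrier := Set.range f
  supClosed' := by
    rintro _ ⟨a, rfl⟩ _ ⟨b, rfl⟩
    exact ⟨a ⊔ b, map_sup f a b⟩
  infClosed' := by
    rintro _ ⟨a, rfl⟩ _ ⟨b, rfl⟩
    exact ⟨a ⊓ b, map_inf f a b⟩

/-- The homomorphism onto the image. -/
def toIm {L K : Type} [Lattice L] [Lattice K] (f : LatticeHom L K) : LatticeHom L (imS f) where
  toFun l := ⟨f l, l, rfl⟩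
  map_sup' a b := Subtype.ext (map_sup f a b)
  map_inf' a b := Subtype.ext (map_inf f a b)

theorem toIm_surj {L K : Type} [Lattice L] [Lattice K] (f : LatticeHom L K) :
    Function.Surjective (toIm f) := by
  rintro ⟨_, l, rfl⟩
  exact ⟨l, rfl⟩

theorem toIm_val {L K : Type} [Lattice L] [Lattice K] (f : LatticeHom L K) (l : L) :
    (toIm f l).1 = f l := rfl

/-- The homomorphism into the product. -/
def pairHom {L K S : Type} [Lattice L] [Lattice K] [Lattice S] (f : LatticeHom L K)
    (g : LatticeHom L S) : LatticeHom L (K × S) where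
  toFun l := (f l, g l)
  map_sup' a b := Prod.ext (map_sup f a b) (map_sup g a b)
  map_inf' a b := Prod.ext (map_inf f a b) (map_inf g a b)

/-- First projection from the image of a pair. -/
def imFst {L K S : Type} [Lattice L] [Lattice K] [Lattice S] (f : LatticeHom L K)
    (g : LatticeHom L S) : LatticeHom (imS (pairHom f g)) K where
  toFun x := x.1.1
  map_sup' _ _ := rfl
  map_inf' _ _ := rfl

/-- Second projection from the image of a pair. -/
def imSnd {L K S : Type} [Lattice L] [Lattice K] [Lattice S] (f : LatticeHom L K)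
    (g : LatticeHom L S) : LatticeHom (imS (pairHom f g)) S where
  toFun x := x.1.2
  map_sup' _ _ := rfl
  map_inf' _ _ := rfl

/-- An injective surjective homomorphism is an isomorphism. -/
theorem Representable.of_bijective {L K : Type} [Lattice L] [Lattice K] (f : LatticeHom L K)
    (hf : Function.Surjective f) (hinj : Function.Injective f) (hK : Representable K) :
    Representable L := by
  refine Representable.of_iso (RelIso.ofSurjective (OrderEmbedding.ofMapLEIff f ?_) hf) hK
  intro a b
  constructor
  · intro h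
    have h1 : a ⊓ b = a := hinj (by rw [map_inf, inf_eq_left.2 h])
    exact inf_eq_left.1 h1
  · intro h
    exact OrderHomClass.mono f h

/-- **Closure under subdirect products.** A finite lattice whose elements are separated by
homomorphisms onto representable lattices is representable. -/
theorem representable_of_separated (L : Type) [Lattice L] [Finite L] [Nonempty L]
    (h : ∀ a b : L, a ≠ b → ∃ (K : Type) (_ : Lattice K) (f : LatticeHom L K),
      Function.Surjective f ∧ Representable K ∧ f a ≠ f b) : Representable L := by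
  classical
  cases nonempty_fintype L
  have key : ∀ T : Finset (L × L), ∃ (K : Type) (_ : Lattice K) (F : LatticeHom L K),
      Function.Surjective F ∧ Representable K ∧ ∀ p ∈ T, p.1 ≠ p.2 → F p.1 ≠ F p.2 := by
    intro T
    induction T using Finset.induction_on with
    | empty =>
      let F : LatticeHom L PUnit :=
        { toFun := fun _ => PUnit.unit, map_sup' := fun _ _ => rfl, map_inf' := fun _ _ => rfl }
      refine ⟨PUnit, inferInstance, F, ?_, representable_unique PUnit, ?_⟩
      · intro x
        exact ⟨Classical.arbitrary L, rfl⟩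
      · intro p hp
        exact absurd hp (Finset.notMem_empty p)
    | insert p T hp ih =>
      obtain ⟨K, _, F, hF, hK, hsep⟩ := ih
      by_cases hne : p.1 = p.2
      · refine ⟨K, inferInstance, F, hF, hK, ?_⟩
        intro q hq hq2
        rcases Finset.mem_insert.1 hq with rfl | hq
        · exact absurd hne hq2
        · exact hsep q hq hq2
      · obtain ⟨S, _, g, hg, hS, hgne⟩ := h p.1 p.2 hne
        refine ⟨imS (pairHom F g), inferInstance, toIm (pairHom F g), toIm_surj _, ?_, ?_⟩
        · refine Representable.subdirect (imFst F g) (imSnd F g) ?_ ?_ ?_ hK hS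
          · intro k
            obtain ⟨l, rfl⟩ := hF k
            exact ⟨toIm (pairHom F g) l, rfl⟩
          · intro k
            obtain ⟨l, rfl⟩ := hg k
            exact ⟨toIm (pairHom F g) l, rfl⟩
          · intro a b h1 h2
            exact Subtype.ext (Prod.ext h1 h2)
        · intro q hq hq2 heq
          have h1 : pairHom F g q.1 = pairHom F g q.2 := congrArg Subtype.val heq
          rcases Finset.mem_insert.1 hq with rfl | hq
          · exact hgne (congrArg Prod.snd h1)
          · exact hsep q hq hq2 (congrArg Prod.fst h1)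
  obtain ⟨K, _, F, hF, hK, hsep⟩ := key Finset.univ
  refine Representable.of_bijective F hF ?_ hK
  intro a b hab
  by_contra hne
  exact hsep (a, b) (Finset.mem_univ _) hne hab

/-- **Intervals.** Every interval of a representable lattice is representable. -/
theorem Representable.interval {M : Type} [Lattice M] (hM : Representable M) (a b : M)
    (hab : a ≤ b) : Representable {x : M // a ≤ x ∧ x ≤ b} := by
  let _ : Lattice {x : M // a ≤ x ∧ x ≤ b} :=
    { (inferInstance : PartialOrder {x : M // a ≤ x ∧ x ≤ b}) with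
      sup := fun x y => ⟨x.1 ⊔ y.1, x.2.1.trans le_sup_left, sup_le x.2.2 y.2.2⟩
      inf := fun x y => ⟨x.1 ⊓ y.1, le_inf x.2.1 y.2.1, inf_le_left.trans x.2.2⟩
      le_sup_left := fun x y => (le_sup_left : x.1 ≤ x.1 ⊔ y.1)
      le_sup_right := fun x y => (le_sup_right : y.1 ≤ x.1 ⊔ y.1)
      sup_le := fun x y z h1 h2 => (sup_le h1 h2 : x.1 ⊔ y.1 ≤ z.1)
      inf_le_left := fun x y => (inf_le_left : x.1 ⊓ y.1 ≤ x.1)
      inf_le_right := fun x y => (inf_le_right : x.1 ⊓ y.1 ≤ y.1)
      le_inf := fun x y z h1 h2 => (le_inf h1 h2 : x.1 ≤ y.1 ⊓ z.1) }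
  let f : LatticeHom {x : M // a ≤ x ∧ x ≤ b} PUnit :=
    { toFun := fun _ => PUnit.unit, map_sup' := fun _ _ => rfl, map_inf' := fun _ _ => rfl }
  refine Representable.master f ?_ (fun x => x.1) (fun x y h => h) (fun x y _ h => h) ?_
    (representable_unique PUnit) hM
  · intro x
    exact ⟨⟨a, le_refl a, hab⟩, rfl⟩
  · intro x y m _ h1 h2
    exact ⟨⟨m, x.2.1.trans h1, h2.trans y.2.2⟩, rfl, rfl⟩

end Vale.Agent.P183
end

section

/-!
Finite orders coded by natural numbers, and certificate checkers for representability.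
-/

namespace Vale.Agent.P183

/-- The coded order on `{0, ..., n - 1}`: `0` is the bottom, `n - 1` the top, and the bits of `b`
give the strict relations between the other elements. -/
def ordB (n b x y : ℕ) : Bool :=
  x == y || x == 0 || y + 1 == n ||
    (Nat.blt x y && Nat.blt (y + 1) n && Nat.testBit b ((y - 1) * (y - 2) / 2 + (x - 1)))

/-- `Fin n` with the coded order. -/
def FO (n _b : ℕ) : Type := Fin n

instance (n b : ℕ) : LE (FO n b) := ⟨fun x y => ordB n b (Fin.val x) (Fin.val y) = true⟩

def FO.mk {n b : ℕ} (x : ℕ) (h : x < n) : FO n b := (⟨x, h⟩ : Fin n)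

def FO.v {n b : ℕ} (x : FO n b) : ℕ := Fin.val (n := n) x

theorem FO.v_lt {n b : ℕ} (x : FO n b) : x.v < n := Fin.is_lt (n := n) x

theorem FO.le_def {n b : ℕ} (x y : FO n b) : x ≤ y ↔ ordB n b x.v y.v = true := Iff.rfl

theorem FO.ext {n b : ℕ} {x y : FO n b} (h : x.v = y.v) : x = y := Fin.ext (n := n) h

@[simp] theorem FO.v_mk {n b : ℕ} (x : ℕ) (h : x < n) : (FO.mk x h : FO n b).v = x := rfl

def allN (n : ℕ) (p : ℕ → Bool) : Bool := (List.range n).all p

def anyN (n : ℕ) (p : ℕ → Bool) : Bool := (List.range n).any p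

theorem allN_iff {n : ℕ} {p : ℕ → Bool} : allN n p = true ↔ ∀ x, x < n → p x = true := by
  simp [allN, List.all_eq_true]

theorem anyN_iff {n : ℕ} {p : ℕ → Bool} : anyN n p = true ↔ ∃ x, x < n ∧ p x = true := by
  simp [anyN, List.any_eq_true]

/-- Boolean implication. -/
def impB (a b : Bool) : Bool := !a || b

theorem impB_iff {a b : Bool} : impB a b = true ↔ (a = true → b = true) := by
  cases a <;> cases b <;> simp [impB]

/-- The relation is a partial order. -/
def isPO (n b : ℕ) : Bool :=
  allN n fun x => allN n fun y =>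
    impB (ordB n b x y) (impB (ordB n b y x) (x == y) &&
      allN n fun z => impB (ordB n b y z) (ordB n b x z))

/-- `z` is the join of `x` and `y`. -/
def isJn (n b x y z : ℕ) : Bool :=
  ordB n b x z && ordB n b y z &&
    allN n fun w => impB (ordB n b x w && ordB n b y w) (ordB n b z w)

/-- `z` is the meet of `x` and `y`. -/
def isMt (n b x y z : ℕ) : Bool :=
  ordB n b z x && ordB n b z y &&
    allN n fun w => impB (ordB n b w x && ordB n b w y) (ordB n b w z)

/-- The coded order is a lattice order. -/
def isLat (n b : ℕ) : Bool :=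
  isPO n b && allN n fun x => allN n fun y => anyN n (isJn n b x y) && anyN n (isMt n b x y)

theorem ordB_refl (n b x : ℕ) : ordB n b x x = true := by simp [ordB]

/-- The partial order on `FO n b`. -/
abbrev FO.po {n b : ℕ} (h : isPO n b = true) : PartialOrder (FO n b) where
  le := (· ≤ ·)
  le_refl x := ordB_refl n b x.v
  le_trans x y z hxy hyz := by
    have h1 := impB_iff.1 (allN_iff.1 (allN_iff.1 h x.v x.v_lt) y.v y.v_lt) hxy
    rw [Bool.and_eq_true] at h1
    exact impB_iff.1 (allN_iff.1 h1.2 z.v z.v_lt) hyz
  le_antisymm x y hxy hyx := by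
    have h1 := impB_iff.1 (allN_iff.1 (allN_iff.1 h x.v x.v_lt) y.v y.v_lt) hxy
    rw [Bool.and_eq_true] at h1
    exact FO.ext (by simpa using impB_iff.1 h1.1 hyx)

theorem isLat_po {n b : ℕ} (h : isLat n b = true) : isPO n b = true := by
  rw [isLat, Bool.and_eq_true] at h; exact h.1

theorem isLat_jn {n b : ℕ} (h : isLat n b = true) (x y : FO n b) :
    ∃ z : FO n b, x ≤ z ∧ y ≤ z ∧ ∀ w : FO n b, x ≤ w → y ≤ w → z ≤ w := by
  rw [isLat, Bool.and_eq_true] at h
  have h1 := allN_iff.1 (allN_iff.1 h.2 x.v x.v_lt) y.v y.v_lt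
  rw [Bool.and_eq_true] at h1
  obtain ⟨z, hz, hz'⟩ := anyN_iff.1 h1.1
  rw [isJn, Bool.and_eq_true, Bool.and_eq_true] at hz'
  refine ⟨FO.mk z hz, hz'.1.1, hz'.1.2, fun w hw hw' => ?_⟩
  exact impB_iff.1 (allN_iff.1 hz'.2 w.v w.v_lt)
    (by rw [Bool.and_eq_true]; exact ⟨hw, hw'⟩)

theorem isLat_mt {n b : ℕ} (h : isLat n b = true) (x y : FO n b) :
    ∃ z : FO n b, z ≤ x ∧ z ≤ y ∧ ∀ w : FO n b, w ≤ x → w ≤ y → w ≤ z := by
  rw [isLat, Bool.and_eq_true] at h
  have h1 := allN_iff.1 (allN_iff.1 h.2 x.v x.v_lt) y.v y.v_lt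
  rw [Bool.and_eq_true] at h1
  obtain ⟨z, hz, hz'⟩ := anyN_iff.1 h1.2
  rw [isMt, Bool.and_eq_true, Bool.and_eq_true] at hz'
  refine ⟨FO.mk z hz, hz'.1.1, hz'.1.2, fun w hw hw' => ?_⟩
  exact impB_iff.1 (allN_iff.1 hz'.2 w.v w.v_lt)
    (by rw [Bool.and_eq_true]; exact ⟨hw, hw'⟩)

/-- The lattice `FO n b`. -/
noncomputable abbrev FO.lat {n b : ℕ} (h : isLat n b = true) : Lattice (FO n b) :=
  { FO.po (isLat_po h) with
    sup := fun x y => (isLat_jn h x y).choose
    le_sup_left := fun x y => (isLat_jn h x y).choose_spec.1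
    le_sup_right := fun x y => (isLat_jn h x y).choose_spec.2.1
    sup_le := fun x y z hx hy => (isLat_jn h x y).choose_spec.2.2 z hx hy
    inf := fun x y => (isLat_mt h x y).choose
    inf_le_left := fun x y => (isLat_mt h x y).choose_spec.1
    inf_le_right := fun x y => (isLat_mt h x y).choose_spec.2.1
    le_inf := fun x y z hx hy => (isLat_mt h y z).choose_spec.2.2 x hx hy }

/-- Table look-up. -/
def get (f : List ℕ) (x : ℕ) : ℕ := f.getD x 0

/-- `f` is the table of an isomorphism of coded orders. -/
def isoCheck (n b c : ℕ) (f g : List ℕ) : Bool :=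
  (allN n fun x => Nat.blt (get f x) n && Nat.blt (get g x) n && (get g (get f x) == x) &&
    (get f (get g x) == x)) &&
  allN n fun x => allN n fun y => ordB n b x y == ordB n c (get f x) (get f y)

theorem FO.iso {n b c : ℕ} (f g : List ℕ) (h : isoCheck n b c f g = true) :
    Nonempty (FO n b ≃o FO n c) := by
  rw [isoCheck, Bool.and_eq_true] at h
  have h1 := allN_iff.1 h.1
  have h2 : ∀ x, x < n → get f x < n ∧ get g x < n ∧ get g (get f x) = x ∧
      get f (get g x) = x := by
    intro x hx
    have := h1 x hx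
    simp only [Bool.and_eq_true, Nat.blt_eq, beq_iff_eq] at this
    exact ⟨this.1.1.1, this.1.1.2, this.1.2, this.2⟩
  refine ⟨{ toFun := fun x => FO.mk (get f x.v) (h2 _ x.v_lt).1
            invFun := fun x => FO.mk (get g x.v) (h2 _ x.v_lt).2.1
            left_inv := fun x => FO.ext (h2 _ x.v_lt).2.2.1
            right_inv := fun x => FO.ext (h2 _ x.v_lt).2.2.2
            map_rel_iff' := ?_ }⟩
  intro x y
  have := allN_iff.1 (allN_iff.1 h.2 x.v x.v_lt) y.v y.v_lt
  rw [beq_iff_eq] at this
  show ordB n c (get f x.v) (get f y.v) = true ↔ ordB n b x.v y.v = true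
  rw [this]

theorem FO.rep_iso {n b c : ℕ} (f g : List ℕ) (h : isoCheck n b c f g = true)
    (hc : Representable (FO n c)) : Representable (FO n b) := by
  obtain ⟨e⟩ := FO.iso f g h
  exact hc.of_iso e

/-- `f` is the table of an anti-isomorphism of coded orders. -/
def dualCheck (n b c : ℕ) (f g : List ℕ) : Bool :=
  isPO n c && (allN n fun x => Nat.blt (get f x) n && Nat.blt (get g x) n &&
    (get g (get f x) == x) && (get f (get g x) == x)) &&
  allN n fun x => allN n fun y => ordB n b x y == ordB n c (get f y) (get f x)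

theorem FO.rep_dual {n b c : ℕ} (f g : List ℕ) (h : dualCheck n b c f g = true)
    (hc : Representable (FO n c)) : Representable (FO n b) := by
  rw [dualCheck, Bool.and_eq_true, Bool.and_eq_true] at h
  let _ : PartialOrder (FO n c) := FO.po h.1.1
  have h1 := allN_iff.1 h.1.2
  have h2 : ∀ x, x < n → get f x < n ∧ get g x < n ∧ get g (get f x) = x ∧
      get f (get g x) = x := by
    intro x hx
    have := h1 x hx
    simp only [Bool.and_eq_true, Nat.blt_eq, beq_iff_eq] at this
    exact ⟨this.1.1.1, this.1.1.2, this.1.2, this.2⟩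
  have hd : Representable (FO n c)ᵒᵈ := Representable.dual hc
  let e : FO n b ≃o (FO n c)ᵒᵈ :=
    { toFun := fun x => OrderDual.toDual (FO.mk (get f x.v) (h2 _ x.v_lt).1)
      invFun := fun x => FO.mk (get g (OrderDual.ofDual x).v) (h2 _ (OrderDual.ofDual x).v_lt).2.1
      left_inv := fun x => FO.ext (h2 _ x.v_lt).2.2.1
      right_inv := fun x => congrArg OrderDual.toDual
        (FO.ext (h2 _ (OrderDual.ofDual x).v_lt).2.2.2)
      map_rel_iff' := by
        intro x y
        have := allN_iff.1 (allN_iff.1 h.2 x.v x.v_lt) y.v y.v_lt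
        rw [beq_iff_eq] at this
        show ordB n c (get f y.v) (get f x.v) = true ↔ ordB n b x.v y.v = true
        rw [this] }
  exact hd.of_iso e

/-- `f` is the table of a surjective lattice homomorphism with fibres of at most two elements. -/
def tfCheck (n b k c : ℕ) (f : List ℕ) : Bool :=
  isLat n b && isLat k c && (allN n fun x => Nat.blt (get f x) k) &&
  (allN k fun y => anyN n fun x => get f x == y) &&
  (allN n fun x => allN n fun y =>
    (anyN n fun z => isJn n b x y z && isJn k c (get f x) (get f y) (get f z)) &&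
    (anyN n fun z => isMt n b x y z && isMt k c (get f x) (get f y) (get f z))) &&
  (allN n fun x => allN n fun y => impB (get f x == get f y)
    (allN n fun z => impB (get f y == get f z) (x == y || y == z || x == z)))

theorem FO.rep_two_fiber {n b k c : ℕ} (f : List ℕ) (h : tfCheck n b k c f = true)
    (hc : Representable (FO k c)) : Representable (FO n b) := by
  simp only [tfCheck, Bool.and_eq_true] at h
  obtain ⟨⟨⟨⟨⟨hn, hk⟩, hf⟩, hsurj⟩, hhom⟩, htwo⟩ := h
  let _ : Lattice (FO n b) := FO.lat hn
  let _ : Lattice (FO k c) := FO.lat hk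
  have hf' : ∀ x, x < n → get f x < k := fun x hx => by
    have := allN_iff.1 hf x hx; simpa using this
  have hF : ∀ x y : FO n b, ∀ z : ℕ, z < n → isJn n b x.v y.v z = true →
      (x ⊔ y).v = z := by
    intro x y z hz h
    simp only [isJn, Bool.and_eq_true] at h
    have h1 : x ⊔ y ≤ FO.mk z hz := sup_le (a := x) (b := y) h.1.1 h.1.2
    have h2 : (FO.mk z hz : FO n b) ≤ x ⊔ y := by
      have := allN_iff.1 h.2 (x ⊔ y).v (x ⊔ y).v_lt
      exact impB_iff.1 this (by
        rw [Bool.and_eq_true]
        exact ⟨le_sup_left (a := x) (b := y), le_sup_right (a := x) (b := y)⟩)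
    exact congrArg FO.v (le_antisymm h1 h2)
  have hF' : ∀ x y : FO k c, ∀ z : ℕ, z < k → isJn k c x.v y.v z = true →
      (x ⊔ y).v = z := by
    intro x y z hz h
    simp only [isJn, Bool.and_eq_true] at h
    have h1 : x ⊔ y ≤ FO.mk z hz := sup_le (a := x) (b := y) h.1.1 h.1.2
    have h2 : (FO.mk z hz : FO k c) ≤ x ⊔ y := by
      have := allN_iff.1 h.2 (x ⊔ y).v (x ⊔ y).v_lt
      exact impB_iff.1 this (by
        rw [Bool.and_eq_true]
        exact ⟨le_sup_left (a := x) (b := y), le_sup_right (a := x) (b := y)⟩)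
    exact congrArg FO.v (le_antisymm h1 h2)
  have hG : ∀ x y : FO n b, ∀ z : ℕ, z < n → isMt n b x.v y.v z = true →
      (x ⊓ y).v = z := by
    intro x y z hz h
    simp only [isMt, Bool.and_eq_true] at h
    have ha : (FO.mk z hz : FO n b) ≤ x := h.1.1
    have hb : (FO.mk z hz : FO n b) ≤ y := h.1.2
    have h1 : FO.mk z hz ≤ x ⊓ y := le_inf ha hb
    have h2 : x ⊓ y ≤ (FO.mk z hz : FO n b) := by
      have := allN_iff.1 h.2 (x ⊓ y).v (x ⊓ y).v_lt
      exact impB_iff.1 this (by
        rw [Bool.and_eq_true]
        exact ⟨inf_le_left (a := x) (b := y), inf_le_right (a := x) (b := y)⟩)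
    exact congrArg FO.v (le_antisymm h2 h1)
  have hG' : ∀ x y : FO k c, ∀ z : ℕ, z < k → isMt k c x.v y.v z = true →
      (x ⊓ y).v = z := by
    intro x y z hz h
    simp only [isMt, Bool.and_eq_true] at h
    have ha : (FO.mk z hz : FO k c) ≤ x := h.1.1
    have hb : (FO.mk z hz : FO k c) ≤ y := h.1.2
    have h1 : FO.mk z hz ≤ x ⊓ y := le_inf ha hb
    have h2 : x ⊓ y ≤ (FO.mk z hz : FO k c) := by
      have := allN_iff.1 h.2 (x ⊓ y).v (x ⊓ y).v_lt
      exact impB_iff.1 this (by
        rw [Bool.and_eq_true]
        exact ⟨inf_le_left (a := x) (b := y), inf_le_right (a := x) (b := y)⟩)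
    exact congrArg FO.v (le_antisymm h2 h1)
  let F : FO n b → FO k c := fun x => FO.mk (get f x.v) (hf' _ x.v_lt)
  let Φ : LatticeHom (FO n b) (FO k c) :=
    { toFun := F
      map_sup' := by
        intro x y
        have h1 := allN_iff.1 (allN_iff.1 hhom x.v x.v_lt) y.v y.v_lt
        rw [Bool.and_eq_true] at h1
        obtain ⟨z, hz, hz'⟩ := anyN_iff.1 h1.1
        rw [Bool.and_eq_true] at hz'
        have e1 := hF x y z hz hz'.1
        have e2 := hF' (F x) (F y) (get f z) (hf' z hz) hz'.2
        apply FO.ext
        show get f (x ⊔ y).v = (F x ⊔ F y).v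
        rw [e1, e2]
      map_inf' := by
        intro x y
        have h1 := allN_iff.1 (allN_iff.1 hhom x.v x.v_lt) y.v y.v_lt
        rw [Bool.and_eq_true] at h1
        obtain ⟨z, hz, hz'⟩ := anyN_iff.1 h1.2
        rw [Bool.and_eq_true] at hz'
        have e1 := hG x y z hz hz'.1
        have e2 := hG' (F x) (F y) (get f z) (hf' z hz) hz'.2
        apply FO.ext
        show get f (x ⊓ y).v = (F x ⊓ F y).v
        rw [e1, e2] }
  refine Representable.of_two_fiber Φ ?_ ?_ hc
  · intro y
    obtain ⟨x, hx, hxy⟩ := anyN_iff.1 (allN_iff.1 hsurj y.v y.v_lt)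
    exact ⟨FO.mk x hx, FO.ext (show get f x = y.v by simpa using hxy)⟩
  · intro x y z hxy hyz
    have e1 : get f x.v = get f y.v := congrArg FO.v hxy
    have e2 : get f y.v = get f z.v := congrArg FO.v hyz
    have h1 := impB_iff.1 (allN_iff.1 (allN_iff.1 htwo x.v x.v_lt) y.v y.v_lt) (by simpa using e1)
    have h2 := impB_iff.1 (allN_iff.1 h1 z.v z.v_lt) (by simpa using e2)
    simp only [Bool.or_eq_true, beq_iff_eq] at h2
    rcases h2 with (h2 | h2) | h2
    · exact Or.inl (FO.ext h2)
    · exact Or.inr (Or.inl (FO.ext h2))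
    · exact Or.inr (Or.inr (FO.ext h2))

end Vale.Agent.P183
end

section

/-!
A certificate checker: the coded order is the congruence lattice of an explicit unary algebra.
-/

namespace Vale.Agent.P183

/-- Closure of the work list `w` under the maps `fs`, starting from the labelling `lab`. -/
def cl (fs : List (List ℕ)) : ℕ → List ℕ → List (ℕ × ℕ) → List ℕ
  | 0, lab, _ => lab
  | _ + 1, lab, [] => lab
  | k + 1, lab, (u, v) :: w =>
    if get lab u == get lab v then cl fs k lab w
    else cl fs k (lab.map fun l => if l == get lab v then get lab u else l)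
      (fs.map (fun f => (get f u, get f v)) ++ w)

theorem get_map (lab : List ℕ) (g : ℕ → ℕ) (a : ℕ) (ha : a < lab.length) :
    get (lab.map g) a = g (get lab a) := by
  simp [get, List.getD_eq_getElem?_getD, List.getElem?_map, List.getElem?_eq_getElem ha]

theorem cl_length (fs : List (List ℕ)) : ∀ (k : ℕ) (lab : List ℕ) (w : List (ℕ × ℕ)),
    (cl fs k lab w).length = lab.length
  | 0, lab, w => by rw [cl]
  | k + 1, lab, [] => by rw [cl]
  | k + 1, lab, (u, v) :: w => by
    rw [cl]
    split_ifs
    · exact cl_length fs k lab w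
    · rw [cl_length fs k _ _, List.length_map]

theorem cl_sound (R : Setoid ℕ) (N : ℕ) (fs : List (List ℕ))
    (hfs : ∀ f ∈ fs, ∀ a b, a < N → b < N → R a b → R (get f a) (get f b))
    (hlt : ∀ f ∈ fs, ∀ a, a < N → get f a < N) :
    ∀ (k : ℕ) (lab : List ℕ) (w : List (ℕ × ℕ)), lab.length = N →
      (∀ a b, a < N → b < N → get lab a = get lab b → R a b) →
      (∀ p ∈ w, p.1 < N ∧ p.2 < N ∧ R p.1 p.2) →
      ∀ a b, a < N → b < N → get (cl fs k lab w) a = get (cl fs k lab w) b → R a b
  | 0, lab, w => by
    intro hN hlab _ a b ha hb h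
    rw [cl] at h; exact hlab a b ha hb h
  | k + 1, lab, [] => by
    intro hN hlab _ a b ha hb h
    rw [cl] at h; exact hlab a b ha hb h
  | k + 1, lab, (u, v) :: w => by
    intro hN hlab hw a b ha hb h
    have huv := hw (u, v) (by simp)
    obtain ⟨hu, hv, hR⟩ := huv
    simp only at hu hv hR
    rw [cl] at h
    split_ifs at h with hc
    · exact cl_sound R N fs hfs hlt k lab w hN hlab
        (fun p hp => hw p (List.mem_cons_of_mem _ hp)) a b ha hb h
    · refine cl_sound R N fs hfs hlt k _ _ (by rw [List.length_map]; exact hN) ?_ ?_ a b ha hb h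
      · intro c d hc' hd' hcd
        rw [get_map _ _ _ (by rw [hN]; exact hc'), get_map _ _ _ (by rw [hN]; exact hd')] at hcd
        by_cases h1 : get lab c = get lab v <;> by_cases h2 : get lab d = get lab v
        · exact hlab c d hc' hd' (h1.trans h2.symm)
        · simp only [h1, beq_self_eq_true, if_true] at hcd
          rw [if_neg (by simpa using h2)] at hcd
          have e1 : R c v := hlab c v hc' hv h1
          have e2 : R u d := hlab u d hu hd' hcd
          exact Setoid.trans' _ e1 (Setoid.trans' _ (Setoid.symm' _ hR) e2)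
        · rw [if_neg (by simpa using h1)] at hcd
          simp only [h2, beq_self_eq_true, if_true] at hcd
          have e1 : R c u := hlab c u hc' hu hcd
          have e2 : R v d := hlab v d hv hd' h2.symm
          exact Setoid.trans' _ e1 (Setoid.trans' _ hR e2)
        · rw [if_neg (by simpa using h1), if_neg (by simpa using h2)] at hcd
          exact hlab c d hc' hd' hcd
      · intro p hp
        rcases List.mem_append.1 hp with hp | hp
        · obtain ⟨f, hf, rfl⟩ := List.mem_map.1 hp
          exact ⟨hlt f hf u hu, hlt f hf v hv, hfs f hf u v hu hv hR⟩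
        · exact hw p (List.mem_cons_of_mem _ hp)

/-- `p` (a table of representatives) is finer than the labelling `L`. -/
def finer (N : ℕ) (p L : List ℕ) : Bool :=
  allN N fun a => get L a == get L (get p a)

/-- The table look-up for lists of tables. -/
def getL (ths : List (List ℕ)) (x : ℕ) : List ℕ := ths.getD x []

/-- The checker: `fs` are the operations on `{0, ..., N - 1}`, `ths` the congruences. -/
def algCheck (n b N fuel : ℕ) (fs ths : List (List ℕ)) : Bool :=
  Nat.blt 0 N && Nat.blt 0 n && isPO n b &&
  (fs.all fun f => allN N fun a => Nat.blt (get f a) N) &&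
  (allN n fun x => ((getL ths x).length == N) && allN N fun a =>
    Nat.blt (get (getL ths x) a) N && (get (getL ths x) (get (getL ths x) a) == get (getL ths x) a)) &&
  (allN N fun a => get (getL ths 0) a == a) &&
  (allN n fun x => fs.all fun f => allN N fun a =>
    get (getL ths x) (get f a) == get (getL ths x) (get f (get (getL ths x) a))) &&
  (allN n fun x => allN n fun y => ordB n b x y == finer N (getL ths x) (getL ths y)) &&
  (allN N fun i => allN N fun j => impB (Nat.blt i j)
    (anyN n fun x => (get (getL ths x) i == get (getL ths x) j) &&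
      finer N (getL ths x) (cl fs fuel (List.range N) [(i, j)]))) &&
  (allN n fun x => allN n fun y =>
    (anyN n fun z => ordB n b x z && ordB n b y z &&
      finer N (getL ths z) (cl [] fuel (getL ths x)
        ((List.range N).map fun a => (a, get (getL ths y) a)))))

/-- The equivalence relation given by a table. -/
def tabS (N : ℕ) (p : List ℕ) : Setoid (Fin N) where
  r := fun a b => get p a = get p b
  iseqv := ⟨fun _ => rfl, fun h => h.symm, fun h h' => h.trans h'⟩

theorem tabS_def {N : ℕ} {p : List ℕ} {a b : Fin N} : tabS N p a b ↔ get p a = get p b := Iff.rfl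

/-- The extension of a setoid on `Fin N` to `ℕ`. -/
def extS {N : ℕ} (ρ : Setoid (Fin N)) : Setoid ℕ where
  r := fun a b => a = b ∨ ∃ (ha : a < N) (hb : b < N), ρ ⟨a, ha⟩ ⟨b, hb⟩
  iseqv := by
    refine ⟨fun _ => Or.inl rfl, ?_, ?_⟩
    · rintro a b (h | ⟨ha, hb, h⟩)
      · exact Or.inl h.symm
      · exact Or.inr ⟨hb, ha, Setoid.symm' _ h⟩
    · rintro a b c (h | ⟨ha, hb, h⟩) (h' | ⟨ha', hb', h'⟩)
      · exact Or.inl (h.trans h')
      · subst h; exact Or.inr ⟨ha', hb', h'⟩
      · subst h'; exact Or.inr ⟨ha, hb, h⟩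
      · exact Or.inr ⟨ha, hb', Setoid.trans' _ h h'⟩

theorem extS_iff {N : ℕ} (ρ : Setoid (Fin N)) {a b : ℕ} (ha : a < N) (hb : b < N) :
    extS ρ a b ↔ ρ ⟨a, ha⟩ ⟨b, hb⟩ := by
  constructor
  · rintro (h | ⟨_, _, h⟩)
    · subst h; exact Setoid.refl' _ _
    · exact h
  · intro h; exact Or.inr ⟨ha, hb, h⟩

theorem get_range {N a : ℕ} (ha : a < N) : get (List.range N) a = a := by
  simp [get, List.getD_eq_getElem?_getD, ha]

theorem FO.rep_alg {n b : ℕ} (N fuel : ℕ) (fs ths : List (List ℕ))
    (h : algCheck n b N fuel fs ths = true) : Representable (FO n b) := by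
  classical
  simp only [algCheck, Bool.and_eq_true] at h
  obtain ⟨⟨⟨⟨⟨⟨⟨⟨⟨hN, hn⟩, hpo⟩, hfsN⟩, htab⟩, hzero⟩, hpres⟩, hord⟩, hprin⟩, hjoin⟩ := h
  let _ : PartialOrder (FO n b) := FO.po hpo
  have hN' : 0 < N := by simpa using hN
  have hn' : 0 < n := by simpa using hn
  have hlt : ∀ f ∈ fs, ∀ a, a < N → get f a < N := by
    intro f hf a ha
    have := allN_iff.1 (List.all_eq_true.1 hfsN f hf) a ha
    simpa using this
  have htab' : ∀ x, x < n → (getL ths x).length = N ∧ ∀ a, a < N → get (getL ths x) a < N ∧
      get (getL ths x) (get (getL ths x) a) = get (getL ths x) a := by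
    intro x hx
    have h1 := allN_iff.1 htab x hx
    rw [Bool.and_eq_true] at h1
    refine ⟨by simpa using h1.1, fun a ha => ?_⟩
    have h2 := allN_iff.1 h1.2 a ha
    rw [Bool.and_eq_true] at h2
    exact ⟨by simpa using h2.1, by simpa using h2.2⟩
  have hfiner : ∀ (x : ℕ), x < n → ∀ L : List ℕ, finer N (getL ths x) L = true →
      ∀ a c, a < N → c < N → get (getL ths x) a = get (getL ths x) c → get L a = get L c := by
    intro x hx L hL a c ha hc hac
    have h1 := allN_iff.1 hL a ha
    have h2 := allN_iff.1 hL c hc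
    rw [beq_iff_eq] at h1 h2
    rw [h1, h2, hac]
  have : Nonempty (Fin N) := ⟨⟨0, hN'⟩⟩
  let hat : List ℕ → Fin N → Fin N := fun f a => if h : get f a < N then ⟨get f a, h⟩ else a
  have hhat : ∀ f ∈ fs, ∀ a : Fin N, (hat f a : ℕ) = get f a := by
    intro f hf a
    simp only [hat, dif_pos (hlt f hf a a.2)]
  let F : Set (Fin N → Fin N) := {g | ∃ f ∈ fs, g = hat f}
  let g : FO n b → {ρ : Setoid (Fin N) // ⊥ ≤ ρ ∧ ∀ f ∈ F, ∀ a a', ρ a a' → ρ (f a) (f a')} :=
    fun x => ⟨tabS N (getL ths x.v), bot_le, by
      rintro _ ⟨f, hf, rfl⟩ a a' haa'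
      rw [tabS_def, hhat f hf, hhat f hf]
      have h1 := allN_iff.1 (List.all_eq_true.1 (allN_iff.1 hpres x.v x.v_lt) f hf)
      have h2 := h1 a a.2
      have h3 := h1 a' a'.2
      rw [beq_iff_eq] at h2 h3
      rw [h2, h3, haa']⟩
  have hle : ∀ x y : FO n b, tabS N (getL ths x.v) ≤ tabS N (getL ths y.v) ↔ x ≤ y := by
    intro x y
    have h1 := allN_iff.1 (allN_iff.1 hord x.v x.v_lt) y.v y.v_lt
    rw [beq_iff_eq] at h1
    rw [FO.le_def, h1]
    constructor
    · intro h
      rw [finer, allN_iff]
      intro a ha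
      rw [beq_iff_eq]
      obtain ⟨h2, h3⟩ := (htab' x.v x.v_lt).2 a ha
      exact h (show tabS N (getL ths x.v) ⟨a, ha⟩ ⟨get (getL ths x.v) a, h2⟩ from h3.symm)
    · intro h a c hac
      exact hfiner x.v x.v_lt _ h a c a.2 c.2 hac
  refine representable_of_adm ⊥ F ⟨RelIso.ofSurjective (OrderEmbedding.ofMapLEIff g ?_) ?_⟩
  · intro x y
    exact hle x y
  · rintro ⟨ρ, -, hF⟩
    have hR : ∀ f ∈ fs, ∀ a c, a < N → c < N → extS ρ a c → extS ρ (get f a) (get f c) := by
      intro f hf a c ha hc hac
      rw [extS_iff ρ ha hc] at hac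
      rw [extS_iff ρ (hlt f hf a ha) (hlt f hf c hc)]
      have := hF (hat f) ⟨f, hf, rfl⟩ _ _ hac
      have e1 : hat f ⟨a, ha⟩ = ⟨get f a, hlt f hf a ha⟩ := Fin.ext (hhat f hf ⟨a, ha⟩)
      have e2 : hat f ⟨c, hc⟩ = ⟨get f c, hlt f hf c hc⟩ := Fin.ext (hhat f hf ⟨c, hc⟩)
      rwa [e1, e2] at this
    -- principal congruences
    have hpr : ∀ i j : Fin N, ρ i j → ∃ x : FO n b, tabS N (getL ths x.v) ≤ ρ ∧
        tabS N (getL ths x.v) i j := by
      have main : ∀ i j : ℕ, (hi : i < N) → (hj : j < N) → i < j → extS ρ i j →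
          ∃ x : FO n b, tabS N (getL ths x.v) ≤ ρ ∧ tabS N (getL ths x.v) ⟨i, hi⟩ ⟨j, hj⟩ := by
        intro i j hi hj hij hr
        have h1 := impB_iff.1 (allN_iff.1 (allN_iff.1 hprin i hi) j hj) (by simpa using hij)
        obtain ⟨x, hx, hx'⟩ := anyN_iff.1 h1
        rw [Bool.and_eq_true, beq_iff_eq] at hx'
        refine ⟨FO.mk x hx, ?_, hx'.1⟩
        intro a c hac
        have h2 := hfiner x hx _ hx'.2 a c a.2 c.2 hac
        have h3 := cl_sound (extS ρ) N fs hR hlt fuel (List.range N) [(i, j)] (by simp)
          (by intro a c ha hc h; rw [get_range ha, get_range hc] at h; exact Or.inl h)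
          (by simp [hi, hj, hr]) a c a.2 c.2 h2
        exact (extS_iff ρ a.2 c.2).1 h3
      intro i j hij
      rcases lt_trichotomy (i : ℕ) (j : ℕ) with h | h | h
      · exact main i j i.2 j.2 h ((extS_iff ρ i.2 j.2).2 hij)
      · refine ⟨FO.mk 0 hn', ?_, congrArg (get (getL ths 0)) h⟩
        intro a c hac
        have h1 := allN_iff.1 hzero a a.2
        have h2 := allN_iff.1 hzero c c.2
        rw [beq_iff_eq] at h1 h2
        have h3 : get (getL ths 0) a = get (getL ths 0) c := hac
        rw [h1, h2] at h3
        have : a = c := Fin.ext h3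
        rw [this]
      · obtain ⟨x, h1, h2⟩ := main j i j.2 i.2 h ((extS_iff ρ j.2 i.2).2 (Setoid.symm' _ hij))
        exact ⟨x, h1, Setoid.symm' _ h2⟩
    have hjn : ∀ x y : FO n b, tabS N (getL ths x.v) ≤ ρ → tabS N (getL ths y.v) ≤ ρ →
        ∃ z : FO n b, x ≤ z ∧ y ≤ z ∧ tabS N (getL ths z.v) ≤ ρ := by
      intro x y hx hy
      obtain ⟨z, hz, hz'⟩ := anyN_iff.1 (allN_iff.1 (allN_iff.1 hjoin x.v x.v_lt) y.v y.v_lt)
      rw [Bool.and_eq_true, Bool.and_eq_true] at hz'
      refine ⟨FO.mk z hz, hz'.1.1, hz'.1.2, ?_⟩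
      intro a c hac
      have h2 := hfiner z hz _ hz'.2 a c a.2 c.2 hac
      have h3 := cl_sound (extS ρ) N [] (by simp) (by simp) fuel (getL ths x.v)
        ((List.range N).map fun a => (a, get (getL ths y.v) a)) (htab' _ x.v_lt).1
        (by
          intro a c ha hc h
          exact (extS_iff ρ ha hc).2 (hx (show tabS N (getL ths x.v) ⟨a, ha⟩ ⟨c, hc⟩ from h)))
        (by
          intro p hp
          obtain ⟨a, ha, rfl⟩ := List.mem_map.1 hp
          rw [List.mem_range] at ha
          obtain ⟨h4, h5⟩ := (htab' _ y.v_lt).2 a ha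
          refine ⟨ha, h4, (extS_iff ρ ha h4).2 (hy ?_)⟩
          exact h5.symm)
        a c a.2 c.2 h2
      exact (extS_iff ρ a.2 c.2).1 h3
    have hall : ∀ P : Finset (Fin N × Fin N), (∀ p ∈ P, ρ p.1 p.2) →
        ∃ x : FO n b, tabS N (getL ths x.v) ≤ ρ ∧ ∀ p ∈ P, tabS N (getL ths x.v) p.1 p.2 := by
      intro P
      induction P using Finset.induction_on with
      | empty =>
        intro _
        obtain ⟨x, hx, -⟩ := hpr ⟨0, hN'⟩ ⟨0, hN'⟩ (Setoid.refl' _ _)
        exact ⟨x, hx, by simp⟩
      | insert p P hp ih =>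
        intro hP
        obtain ⟨x, hx, hx'⟩ := ih fun q hq => hP q (Finset.mem_insert_of_mem hq)
        obtain ⟨y, hy, hy'⟩ := hpr p.1 p.2 (hP p (Finset.mem_insert_self _ _))
        obtain ⟨z, hxz, hyz, hz⟩ := hjn x y hx hy
        refine ⟨z, hz, fun q hq => ?_⟩
        rcases Finset.mem_insert.1 hq with rfl | hq
        · exact (hle y z).2 hyz hy'
        · exact (hle x z).2 hxz (hx' q hq)
    obtain ⟨x, hx, hx'⟩ := hall (Finset.univ.filter fun p => ρ p.1 p.2) (by simp)
    refine ⟨x, ?_⟩
    apply Subtype.ext
    refine le_antisymm hx ?_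
    intro a c hac
    exact hx' (a, c) (by simpa using hac)

end Vale.Agent.P183
end
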