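import Mathlib.Order.Extension.Linear
import Mathlib.Data.Fintype.Sort
import Mathlib.Order.BoundedOrder.Lattice
import Mathlib.Order.Lattice.Nat
import Mathlib.Data.Nat.Bits
import Mathlib.GroupTheory.Coset.Defs
import Mathlib.Algebra.Group.Subgroup.Finite
import Mathlib.Data.Fintype.Prod
import Mathlib.Data.Fintype.Pi
import Vale.Agent.P183.Bdl.B2
import Vale.Agent.P183.Bdl.B1

set_option linter.all false

section

/-!
Representability of the small lattices, given by certificates.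
-/

namespace Vale.Agent.P183

theorem r1_0 : Representable (FO 1 0) :=
  FO.rep_alg 1 300 []
    [[0]]
    (by decide +kernel)

theorem r2_0 : Representable (FO 2 0) :=
  FO.rep_two_fiber [0, 0] (by decide +kernel) r1_0

theorem r3_0 : Representable (FO 3 0) :=
  FO.rep_two_fiber [0, 0, 1] (by decide +kernel) r2_0

theorem r4_0 : Representable (FO 4 0) :=
  FO.rep_two_fiber [0, 0, 1, 1] (by decide +kernel) r2_0

theorem r4_1 : Representable (FO 4 1) :=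
  FO.rep_two_fiber [0, 0, 1, 2] (by decide +kernel) r3_0

theorem r5_0 : Representable (FO 5 0) :=
  FO.rep_alg 4 300 [[1, 0, 3, 2], [2, 3, 0, 1]]
    [[0, 1, 2, 3], [0, 0, 2, 2], [0, 1, 0, 1], [0, 1, 1, 0], [0, 0, 0, 0]]
    (by decide +kernel)

theorem r5_1 : Representable (FO 5 1) :=
  FO.rep_two_fiber [0, 1, 1, 2, 3] (by decide +kernel) r4_0

theorem r5_3 : Representable (FO 5 3) :=
  FO.rep_two_fiber [0, 0, 1, 2, 3] (by decide +kernel) r4_0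

theorem r5_6 : Representable (FO 5 6) :=
  FO.rep_two_fiber [0, 0, 1, 1, 2] (by decide +kernel) r3_0

theorem r5_7 : Representable (FO 5 7) :=
  FO.rep_two_fiber [0, 0, 1, 2, 3] (by decide +kernel) r4_1

theorem r6_0 : Representable (FO 6 0) :=
  FO.rep_alg 9 300 [[3, 4, 5, 6, 7, 8, 0, 1, 2], [1, 2, 0, 4, 5, 3, 7, 8, 6]]
    [[0, 1, 2, 3, 4, 5, 6, 7, 8], [0, 0, 0, 3, 3, 3, 6, 6, 6], [0, 1, 2, 0, 1, 2, 0, 1, 2], [0, 1, 2, 1, 2, 0, 2, 0, 1], [0, 1, 2, 2, 0, 1, 1, 2, 0], [0, 0, 0, 0, 0, 0, 0, 0, 0]]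
    (by decide +kernel)

theorem r6_6 : Representable (FO 6 6) :=
  FO.rep_alg 4 300 [[0, 0, 2, 2], [1, 1, 3, 3]]
    [[0, 1, 2, 3], [0, 0, 2, 3], [0, 1, 2, 2], [0, 0, 2, 2], [0, 1, 0, 1], [0, 0, 0, 0]]
    (by decide +kernel)

theorem r6_1 : Representable (FO 6 1) :=
  FO.rep_two_fiber [0, 1, 1, 2, 3, 4] (by decide +kernel) r5_0

theorem r6_3 : Representable (FO 6 3) :=
  FO.rep_dual [5, 3, 1, 2, 4, 0] [5, 2, 3, 1, 4, 0] (by decide +kernel) r6_6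

theorem r6_7 : Representable (FO 6 7) :=
  FO.rep_two_fiber [0, 1, 1, 2, 3, 4] (by decide +kernel) r5_1

theorem r6_11 : Representable (FO 6 11) :=
  FO.rep_two_fiber [0, 0, 1, 2, 3, 4] (by decide +kernel) r5_0

theorem r6_12 : Representable (FO 6 12) :=
  FO.rep_two_fiber [0, 1, 3, 3, 2, 4] (by decide +kernel) r5_1

theorem r6_14 : Representable (FO 6 14) :=
  FO.rep_two_fiber [0, 0, 1, 1, 2, 3] (by decide +kernel) r4_0

theorem r6_15 : Representable (FO 6 15) :=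
  FO.rep_two_fiber [0, 0, 1, 2, 3, 4] (by decide +kernel) r5_1

theorem r6_31 : Representable (FO 6 31) :=
  FO.rep_two_fiber [0, 0, 1, 2, 3, 4] (by decide +kernel) r5_3

theorem r6_56 : Representable (FO 6 56) :=
  FO.rep_two_fiber [0, 1, 2, 3, 4, 4] (by decide +kernel) r5_0

theorem r6_57 : Representable (FO 6 57) :=
  FO.rep_two_fiber [0, 1, 1, 2, 3, 4] (by decide +kernel) r5_6

theorem r6_59 : Representable (FO 6 59) :=
  FO.rep_two_fiber [0, 0, 1, 2, 3, 4] (by decide +kernel) r5_6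

theorem r6_62 : Representable (FO 6 62) :=
  FO.rep_two_fiber [0, 0, 1, 1, 2, 3] (by decide +kernel) r4_1

theorem r6_63 : Representable (FO 6 63) :=
  FO.rep_two_fiber [0, 0, 1, 2, 3, 4] (by decide +kernel) r5_7

theorem r7_0 : Representable (FO 7 0) :=
  FO.rep_alg 16 300 [[4, 5, 6, 7, 0, 1, 2, 3, 12, 13, 14, 15, 8, 9, 10, 11], [1, 0, 3, 2, 5, 4, 7, 6, 9, 8, 11, 10, 13, 12, 15, 14], [0, 2, 3, 1, 8, 10, 11, 9, 12, 14, 15, 13, 4, 6, 7, 5]]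
    [[0, 1, 2, 3, 4, 5, 6, 7, 8, 9, 10, 11, 12, 13, 14, 15], [0, 0, 0, 0, 4, 4, 4, 4, 8, 8, 8, 8, 12, 12, 12, 12], [0, 1, 2, 3, 0, 1, 2, 3, 0, 1, 2, 3, 0, 1, 2, 3], [0, 1, 2, 3, 1, 0, 3, 2, 2, 3, 0, 1, 3, 2, 1, 0], [0, 1, 2, 3, 2, 3, 0, 1, 3, 2, 1, 0, 1, 0, 3, 2], [0, 1, 2, 3, 3, 2, 1, 0, 1, 0, 3, 2, 2, 3, 0, 1], [0, 0, 0, 0, 0, 0, 0, 0, 0, 0, 0, 0, 0, 0, 0, 0]]
    (by decide +kernel)

theorem r7_6 : Representable (FO 7 6) :=
  FO.rep_alg 4 300 [[1, 0, 3, 2]]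
    [[0, 1, 2, 3], [0, 0, 2, 3], [0, 1, 2, 2], [0, 0, 2, 2], [0, 1, 0, 1], [0, 1, 1, 0], [0, 0, 0, 0]]
    (by decide +kernel)

theorem r7_56 : Representable (FO 7 56) :=
  FO.rep_alg 12 300 [[1, 0, 3, 2, 7, 6, 5, 4, 10, 11, 8, 9], [2, 3, 0, 1, 5, 4, 7, 6, 11, 10, 9, 8], [4, 5, 6, 7, 8, 9, 10, 11, 0, 1, 2, 3], [0, 0, 0, 0, 4, 4, 4, 4, 8, 8, 8, 8]]
    [[0, 1, 2, 3, 4, 5, 6, 7, 8, 9, 10, 11], [0, 0, 2, 2, 4, 4, 6, 6, 8, 8, 10, 10], [0, 1, 0, 1, 4, 5, 4, 5, 8, 9, 8, 9], [0, 1, 1, 0, 4, 5, 5, 4, 8, 9, 9, 8], [0, 0, 0, 0, 4, 4, 4, 4, 8, 8, 8, 8], [0, 1, 2, 3, 0, 2, 3, 1, 0, 3, 1, 2], [0, 0, 0, 0, 0, 0, 0, 0, 0, 0, 0, 0]]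
    (by decide +kernel)

theorem r7_121 : Representable (FO 7 121) :=
  FO.rep_alg 12 300 [[10, 10, 10, 10, 7, 7, 7, 7, 0, 1, 0, 1], [5, 4, 7, 6, 1, 0, 3, 2, 9, 8, 11, 10], [4, 5, 6, 7, 8, 9, 10, 11, 0, 1, 2, 3]]
    [[0, 1, 2, 3, 4, 5, 6, 7, 8, 9, 10, 11], [0, 0, 2, 3, 4, 4, 6, 7, 8, 8, 10, 11], [0, 0, 2, 2, 4, 4, 6, 6, 8, 8, 10, 10], [0, 1, 0, 1, 4, 5, 4, 5, 8, 9, 8, 9], [0, 0, 0, 0, 4, 4, 4, 4, 8, 8, 8, 8], [0, 0, 2, 3, 2, 2, 3, 0, 3, 3, 0, 2], [0, 0, 0, 0, 0, 0, 0, 0, 0, 0, 0, 0]]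
    (by decide +kernel)

theorem r7_1 : Representable (FO 7 1) :=
  FO.rep_two_fiber [0, 1, 1, 2, 3, 4, 5] (by decide +kernel) r6_0

theorem r7_3 : Representable (FO 7 3) :=
  FO.rep_dual [6, 3, 1, 2, 4, 5, 0] [6, 2, 3, 1, 4, 5, 0] (by decide +kernel) r7_6

theorem r7_7 : Representable (FO 7 7) :=
  FO.rep_two_fiber [0, 1, 1, 2, 3, 4, 5] (by decide +kernel) r6_1

theorem r7_11 : Representable (FO 7 11) :=
  FO.rep_dual [6, 4, 1, 2, 3, 5, 0] [6, 2, 3, 4, 1, 5, 0] (by decide +kernel) r7_56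

theorem r7_12 : Representable (FO 7 12) :=
  FO.rep_two_fiber [0, 1, 3, 3, 2, 4, 5] (by decide +kernel) r6_1

theorem r7_15 : Representable (FO 7 15) :=
  FO.rep_two_fiber [0, 1, 2, 2, 3, 4, 5] (by decide +kernel) r6_3

theorem r7_31 : Representable (FO 7 31) :=
  FO.rep_two_fiber [0, 1, 1, 2, 3, 4, 5] (by decide +kernel) r6_3

theorem r7_57 : Representable (FO 7 57) :=
  FO.rep_two_fiber [0, 1, 1, 2, 3, 4, 5] (by decide +kernel) r6_6

theorem r7_59 : Representable (FO 7 59) :=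
  FO.rep_two_fiber [0, 1, 1, 2, 2, 3, 4] (by decide +kernel) r5_1

theorem r7_62 : Representable (FO 7 62) :=
  FO.rep_two_fiber [0, 1, 2, 3, 3, 4, 5] (by decide +kernel) r6_6

theorem r7_63 : Representable (FO 7 63) :=
  FO.rep_two_fiber [0, 1, 1, 2, 3, 4, 5] (by decide +kernel) r6_7

theorem r7_75 : Representable (FO 7 75) :=
  FO.rep_two_fiber [0, 0, 1, 2, 3, 4, 5] (by decide +kernel) r6_0

theorem r7_76 : Representable (FO 7 76) :=
  FO.rep_two_fiber [0, 1, 4, 4, 2, 3, 5] (by decide +kernel) r6_3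

theorem r7_78 : Representable (FO 7 78) :=
  FO.rep_two_fiber [0, 0, 1, 1, 2, 3, 4] (by decide +kernel) r5_0

theorem r7_79 : Representable (FO 7 79) :=
  FO.rep_two_fiber [0, 0, 1, 2, 3, 4, 5] (by decide +kernel) r6_1

theorem r7_86 : Representable (FO 7 86) :=
  FO.rep_two_fiber [0, 1, 2, 3, 2, 1, 3] (by decide +kernel) r4_0

theorem r7_95 : Representable (FO 7 95) :=
  FO.rep_two_fiber [0, 0, 1, 2, 3, 4, 5] (by decide +kernel) r6_3

theorem r7_112 : Representable (FO 7 112) :=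
  FO.rep_two_fiber [0, 4, 1, 2, 3, 4, 5] (by decide +kernel) r6_6

theorem r7_116 : Representable (FO 7 116) :=
  FO.rep_two_fiber [0, 1, 2, 2, 3, 4, 5] (by decide +kernel) r6_12

theorem r7_120 : Representable (FO 7 120) :=
  FO.rep_two_fiber [0, 1, 2, 3, 4, 1, 4] (by decide +kernel) r5_0

theorem r7_123 : Representable (FO 7 123) :=
  FO.rep_two_fiber [0, 0, 1, 2, 3, 4, 5] (by decide +kernel) r6_6

theorem r7_124 : Representable (FO 7 124) :=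
  FO.rep_two_fiber [0, 1, 2, 2, 3, 4, 5] (by decide +kernel) r6_14

theorem r7_126 : Representable (FO 7 126) :=
  FO.rep_two_fiber [0, 0, 1, 1, 2, 3, 4] (by decide +kernel) r5_1

theorem r7_127 : Representable (FO 7 127) :=
  FO.rep_two_fiber [0, 0, 1, 2, 3, 4, 5] (by decide +kernel) r6_7

theorem r7_223 : Representable (FO 7 223) :=
  FO.rep_two_fiber [0, 0, 1, 2, 3, 4, 5] (by decide +kernel) r6_11

theorem r7_232 : Representable (FO 7 232) :=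
  FO.rep_two_fiber [0, 0, 1, 2, 2, 1, 3] (by decide +kernel) r4_0

theorem r7_233 : Representable (FO 7 233) :=
  FO.rep_two_fiber [0, 0, 1, 3, 3, 2, 4] (by decide +kernel) r5_1

theorem r7_235 : Representable (FO 7 235) :=
  FO.rep_two_fiber [0, 0, 1, 2, 3, 4, 5] (by decide +kernel) r6_12

theorem r7_249 : Representable (FO 7 249) :=
  FO.rep_two_fiber [0, 1, 1, 2, 3, 4, 5] (by decide +kernel) r6_14

theorem r7_251 : Representable (FO 7 251) :=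
  FO.rep_two_fiber [0, 0, 1, 2, 3, 4, 5] (by decide +kernel) r6_14

theorem r7_255 : Representable (FO 7 255) :=
  FO.rep_two_fiber [0, 0, 1, 2, 3, 4, 5] (by decide +kernel) r6_15

theorem r7_510 : Representable (FO 7 510) :=
  FO.rep_two_fiber [0, 0, 1, 1, 2, 3, 4] (by decide +kernel) r5_3

theorem r7_511 : Representable (FO 7 511) :=
  FO.rep_two_fiber [0, 0, 1, 2, 3, 4, 5] (by decide +kernel) r6_31

theorem r7_960 : Representable (FO 7 960) :=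
  FO.rep_two_fiber [0, 1, 2, 3, 4, 5, 5] (by decide +kernel) r6_0

theorem r7_961 : Representable (FO 7 961) :=
  FO.rep_two_fiber [0, 1, 1, 2, 3, 4, 5] (by decide +kernel) r6_56

theorem r7_963 : Representable (FO 7 963) :=
  FO.rep_two_fiber [0, 1, 2, 3, 4, 5, 5] (by decide +kernel) r6_3

theorem r7_966 : Representable (FO 7 966) :=
  FO.rep_two_fiber [0, 1, 2, 3, 4, 5, 5] (by decide +kernel) r6_6

theorem r7_967 : Representable (FO 7 967) :=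
  FO.rep_two_fiber [0, 1, 1, 2, 3, 4, 5] (by decide +kernel) r6_57

theorem r7_971 : Representable (FO 7 971) :=
  FO.rep_two_fiber [0, 0, 1, 2, 3, 4, 5] (by decide +kernel) r6_56

theorem r7_972 : Representable (FO 7 972) :=
  FO.rep_two_fiber [0, 1, 3, 3, 2, 4, 5] (by decide +kernel) r6_57

theorem r7_974 : Representable (FO 7 974) :=
  FO.rep_two_fiber [0, 0, 1, 1, 2, 3, 4] (by decide +kernel) r5_6

theorem r7_975 : Representable (FO 7 975) :=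
  FO.rep_two_fiber [0, 0, 1, 2, 3, 4, 5] (by decide +kernel) r6_57

theorem r7_991 : Representable (FO 7 991) :=
  FO.rep_two_fiber [0, 0, 1, 2, 3, 4, 5] (by decide +kernel) r6_59

theorem r7_1016 : Representable (FO 7 1016) :=
  FO.rep_two_fiber [0, 1, 2, 3, 4, 4, 5] (by decide +kernel) r6_56

theorem r7_1017 : Representable (FO 7 1017) :=
  FO.rep_two_fiber [0, 1, 1, 2, 3, 4, 5] (by decide +kernel) r6_62

theorem r7_1019 : Representable (FO 7 1019) :=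
  FO.rep_two_fiber [0, 0, 1, 2, 3, 4, 5] (by decide +kernel) r6_62

theorem r7_1022 : Representable (FO 7 1022) :=
  FO.rep_two_fiber [0, 0, 1, 1, 2, 3, 4] (by decide +kernel) r5_7

theorem r7_1023 : Representable (FO 7 1023) :=
  FO.rep_two_fiber [0, 0, 1, 2, 3, 4, 5] (by decide +kernel) r6_63

end Vale.Agent.P183
end

section

/-!
Every coded lattice order on at most seven elements is isomorphic to one of the listed ones.
-/

namespace Vale.Agent.P183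

/-- Every table entry `(b, c, f, g)` gives an isomorphism from code `b` to the listed code `c`. -/
def entriesOK (n : ℕ) (canon : List ℕ) (es : List (ℕ × ℕ × List ℕ × List ℕ)) : Bool :=
  es.all fun e => canon.contains e.2.1 && isoCheck n e.1 e.2.1 e.2.2.1 e.2.2.2

/-- Every code of a lattice order below `k` occurs in the table. -/
def covers (n k : ℕ) (es : List (ℕ × ℕ × List ℕ × List ℕ)) : Bool :=
  allN k fun b => !isLat n b || es.any fun e => e.1 == b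

theorem rep_of_table {n k : ℕ} {canon : List ℕ} {es : List (ℕ × ℕ × List ℕ × List ℕ)}
    (h1 : entriesOK n canon es = true) (h2 : covers n k es = true)
    (hc : ∀ c ∈ canon, Representable (FO n c)) {b : ℕ} (hb : b < k) (hl : isLat n b = true) :
    Representable (FO n b) := by
  have h3 := allN_iff.1 h2 b hb
  rw [hl, Bool.not_true, Bool.false_or] at h3
  obtain ⟨e, he, heb⟩ := List.any_eq_true.1 h3
  have h4 := List.all_eq_true.1 h1 e he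
  rw [Bool.and_eq_true] at h4
  have h5 : e.1 = b := by simpa using heb
  rw [h5] at h4
  exact FO.rep_iso _ _ h4.2 (hc _ (by simpa using h4.1))

def table1 : List (ℕ × ℕ × List ℕ × List ℕ) :=
  [(0, 0, [0], [0])]

def canon1 : List ℕ := [0]

theorem entriesOK1 : entriesOK 1 canon1 table1 = true := by decide +kernel

theorem covers1 : covers 1 1 table1 = true := by decide +kernel

theorem canonRep1 : ∀ c ∈ canon1, Representable (FO 1 c) := by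
  intro c hc
  simp only [canon1, List.mem_cons, List.not_mem_nil, or_false] at hc
  subst hc
  exact r1_0

def table2 : List (ℕ × ℕ × List ℕ × List ℕ) :=
  [(0, 0, [0, 1], [0, 1])]

def canon2 : List ℕ := [0]

theorem entriesOK2 : entriesOK 2 canon2 table2 = true := by decide +kernel

theorem covers2 : covers 2 1 table2 = true := by decide +kernel

theorem canonRep2 : ∀ c ∈ canon2, Representable (FO 2 c) := by
  intro c hc
  simp only [canon2, List.mem_cons, List.not_mem_nil, or_false] at hc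
  subst hc
  exact r2_0

def table3 : List (ℕ × ℕ × List ℕ × List ℕ) :=
  [(0, 0, [0, 1, 2], [0, 1, 2])]

def canon3 : List ℕ := [0]

theorem entriesOK3 : entriesOK 3 canon3 table3 = true := by decide +kernel

theorem covers3 : covers 3 1 table3 = true := by decide +kernel

theorem canonRep3 : ∀ c ∈ canon3, Representable (FO 3 c) := by
  intro c hc
  simp only [canon3, List.mem_cons, List.not_mem_nil, or_false] at hc
  subst hc
  exact r3_0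

def table4 : List (ℕ × ℕ × List ℕ × List ℕ) :=
  [(0, 0, [0, 1, 2, 3], [0, 1, 2, 3]),
   (1, 1, [0, 1, 2, 3], [0, 1, 2, 3])]

def canon4 : List ℕ := [0, 1]

theorem entriesOK4 : entriesOK 4 canon4 table4 = true := by decide +kernel

theorem covers4 : covers 4 2 table4 = true := by decide +kernel

theorem canonRep4 : ∀ c ∈ canon4, Representable (FO 4 c) := by
  intro c hc
  simp only [canon4, List.mem_cons, List.not_mem_nil, or_false] at hc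
  rcases hc with rfl | rfl
  · exact r4_0
  · exact r4_1

def table5 : List (ℕ × ℕ × List ℕ × List ℕ) :=
  [(0, 0, [0, 1, 2, 3, 4], [0, 1, 2, 3, 4]),
   (1, 1, [0, 1, 2, 3, 4], [0, 1, 2, 3, 4]),
   (2, 1, [0, 1, 3, 2, 4], [0, 1, 3, 2, 4]),
   (3, 3, [0, 1, 2, 3, 4], [0, 1, 2, 3, 4]),
   (4, 1, [0, 3, 1, 2, 4], [0, 2, 3, 1, 4]),
   (6, 6, [0, 1, 2, 3, 4], [0, 1, 2, 3, 4]),
   (7, 7, [0, 1, 2, 3, 4], [0, 1, 2, 3, 4])]

def canon5 : List ℕ := [0, 1, 3, 6, 7]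

theorem entriesOK5 : entriesOK 5 canon5 table5 = true := by decide +kernel

theorem covers5 : covers 5 8 table5 = true := by decide +kernel

theorem canonRep5 : ∀ c ∈ canon5, Representable (FO 5 c) := by
  intro c hc
  simp only [canon5, List.mem_cons, List.not_mem_nil, or_false] at hc
  rcases hc with rfl | rfl | rfl | rfl | rfl
  · exact r5_0
  · exact r5_1
  · exact r5_3
  · exact r5_6
  · exact r5_7

def table6 : List (ℕ × ℕ × List ℕ × List ℕ) :=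
  [(0, 0, [0, 1, 2, 3, 4, 5], [0, 1, 2, 3, 4, 5]),
   (1, 1, [0, 1, 2, 3, 4, 5], [0, 1, 2, 3, 4, 5]),
   (2, 1, [0, 1, 3, 2, 4, 5], [0, 1, 3, 2, 4, 5]),
   (3, 3, [0, 1, 2, 3, 4, 5], [0, 1, 2, 3, 4, 5]),
   (4, 1, [0, 3, 1, 2, 4, 5], [0, 2, 3, 1, 4, 5]),
   (6, 6, [0, 1, 2, 3, 4, 5], [0, 1, 2, 3, 4, 5]),
   (7, 7, [0, 1, 2, 3, 4, 5], [0, 1, 2, 3, 4, 5]),
   (8, 1, [0, 1, 3, 4, 2, 5], [0, 1, 4, 2, 3, 5]),
   (9, 3, [0, 1, 2, 4, 3, 5], [0, 1, 2, 4, 3, 5]),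
   (10, 3, [0, 1, 4, 2, 3, 5], [0, 1, 3, 4, 2, 5]),
   (11, 11, [0, 1, 2, 3, 4, 5], [0, 1, 2, 3, 4, 5]),
   (12, 12, [0, 1, 2, 3, 4, 5], [0, 1, 2, 3, 4, 5]),
   (14, 14, [0, 1, 2, 3, 4, 5], [0, 1, 2, 3, 4, 5]),
   (15, 15, [0, 1, 2, 3, 4, 5], [0, 1, 2, 3, 4, 5]),
   (16, 1, [0, 3, 1, 4, 2, 5], [0, 2, 4, 1, 3, 5]),
   (18, 12, [0, 1, 2, 4, 3, 5], [0, 1, 2, 4, 3, 5]),
   (20, 3, [0, 4, 1, 2, 3, 5], [0, 2, 3, 4, 1, 5]),
   (22, 14, [0, 2, 1, 3, 4, 5], [0, 2, 1, 3, 4, 5]),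
   (24, 6, [0, 1, 2, 4, 3, 5], [0, 1, 2, 4, 3, 5]),
   (25, 7, [0, 1, 2, 4, 3, 5], [0, 1, 2, 4, 3, 5]),
   (26, 14, [0, 1, 2, 4, 3, 5], [0, 1, 2, 4, 3, 5]),
   (27, 15, [0, 1, 2, 4, 3, 5], [0, 1, 2, 4, 3, 5]),
   (28, 14, [0, 2, 1, 4, 3, 5], [0, 2, 1, 4, 3, 5]),
   (31, 31, [0, 1, 2, 3, 4, 5], [0, 1, 2, 3, 4, 5]),
   (32, 1, [0, 3, 4, 1, 2, 5], [0, 3, 4, 1, 2, 5]),
   (33, 12, [0, 1, 4, 2, 3, 5], [0, 1, 3, 4, 2, 5]),
   (40, 6, [0, 1, 4, 2, 3, 5], [0, 1, 3, 4, 2, 5]),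
   (41, 14, [0, 1, 4, 2, 3, 5], [0, 1, 3, 4, 2, 5]),
   (42, 7, [0, 1, 4, 2, 3, 5], [0, 1, 3, 4, 2, 5]),
   (43, 15, [0, 1, 4, 2, 3, 5], [0, 1, 3, 4, 2, 5]),
   (48, 6, [0, 4, 1, 2, 3, 5], [0, 2, 3, 4, 1, 5]),
   (52, 7, [0, 4, 1, 2, 3, 5], [0, 2, 3, 4, 1, 5]),
   (56, 56, [0, 1, 2, 3, 4, 5], [0, 1, 2, 3, 4, 5]),
   (57, 57, [0, 1, 2, 3, 4, 5], [0, 1, 2, 3, 4, 5]),
   (58, 57, [0, 1, 3, 2, 4, 5], [0, 1, 3, 2, 4, 5]),
   (59, 59, [0, 1, 2, 3, 4, 5], [0, 1, 2, 3, 4, 5]),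
   (60, 57, [0, 3, 1, 2, 4, 5], [0, 2, 3, 1, 4, 5]),
   (62, 62, [0, 1, 2, 3, 4, 5], [0, 1, 2, 3, 4, 5]),
   (63, 63, [0, 1, 2, 3, 4, 5], [0, 1, 2, 3, 4, 5])]

def canon6 : List ℕ := [0, 1, 3, 6, 7, 11, 12, 14, 15, 31, 56, 57, 59, 62, 63]

theorem entriesOK6 : entriesOK 6 canon6 table6 = true := by decide +kernel

theorem covers6 : covers 6 64 table6 = true := by decide +kernel

theorem canonRep6 : ∀ c ∈ canon6, Representable (FO 6 c) := by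
  intro c hc
  simp only [canon6, List.mem_cons, List.not_mem_nil, or_false] at hc
  rcases hc with rfl | rfl | rfl | rfl | rfl | rfl | rfl | rfl | rfl | rfl | rfl | rfl | rfl | rfl | rfl
  · exact r6_0
  · exact r6_1
  · exact r6_3
  · exact r6_6
  · exact r6_7
  · exact r6_11
  · exact r6_12
  · exact r6_14
  · exact r6_15
  · exact r6_31
  · exact r6_56
  · exact r6_57
  · exact r6_59
  · exact r6_62
  · exact r6_63

def table7 : List (ℕ × ℕ × List ℕ × List ℕ) :=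
  [(0, 0, [0, 1, 2, 3, 4, 5, 6], [0, 1, 2, 3, 4, 5, 6]),
   (1, 1, [0, 1, 2, 3, 4, 5, 6], [0, 1, 2, 3, 4, 5, 6]),
   (2, 1, [0, 1, 3, 2, 4, 5, 6], [0, 1, 3, 2, 4, 5, 6]),
   (3, 3, [0, 1, 2, 3, 4, 5, 6], [0, 1, 2, 3, 4, 5, 6]),
   (4, 1, [0, 3, 1, 2, 4, 5, 6], [0, 2, 3, 1, 4, 5, 6]),
   (6, 6, [0, 1, 2, 3, 4, 5, 6], [0, 1, 2, 3, 4, 5, 6]),
   (7, 7, [0, 1, 2, 3, 4, 5, 6], [0, 1, 2, 3, 4, 5, 6]),
   (8, 1, [0, 1, 3, 4, 2, 5, 6], [0, 1, 4, 2, 3, 5, 6]),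
   (9, 3, [0, 1, 2, 4, 3, 5, 6], [0, 1, 2, 4, 3, 5, 6]),
   (10, 3, [0, 1, 4, 2, 3, 5, 6], [0, 1, 3, 4, 2, 5, 6]),
   (11, 11, [0, 1, 2, 3, 4, 5, 6], [0, 1, 2, 3, 4, 5, 6]),
   (12, 12, [0, 1, 2, 3, 4, 5, 6], [0, 1, 2, 3, 4, 5, 6]),
   (14, 14, [0, 1, 2, 3, 4, 5, 6], [0, 1, 2, 3, 4, 5, 6]),
   (15, 15, [0, 1, 2, 3, 4, 5, 6], [0, 1, 2, 3, 4, 5, 6]),
   (16, 1, [0, 3, 1, 4, 2, 5, 6], [0, 2, 4, 1, 3, 5, 6]),
   (18, 12, [0, 1, 2, 4, 3, 5, 6], [0, 1, 2, 4, 3, 5, 6]),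
   (20, 3, [0, 4, 1, 2, 3, 5, 6], [0, 2, 3, 4, 1, 5, 6]),
   (22, 14, [0, 2, 1, 3, 4, 5, 6], [0, 2, 1, 3, 4, 5, 6]),
   (24, 6, [0, 1, 2, 4, 3, 5, 6], [0, 1, 2, 4, 3, 5, 6]),
   (25, 7, [0, 1, 2, 4, 3, 5, 6], [0, 1, 2, 4, 3, 5, 6]),
   (26, 14, [0, 1, 2, 4, 3, 5, 6], [0, 1, 2, 4, 3, 5, 6]),
   (27, 15, [0, 1, 2, 4, 3, 5, 6], [0, 1, 2, 4, 3, 5, 6]),
   (28, 14, [0, 2, 1, 4, 3, 5, 6], [0, 2, 1, 4, 3, 5, 6]),
   (31, 31, [0, 1, 2, 3, 4, 5, 6], [0, 1, 2, 3, 4, 5, 6]),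
   (32, 1, [0, 3, 4, 1, 2, 5, 6], [0, 3, 4, 1, 2, 5, 6]),
   (33, 12, [0, 1, 4, 2, 3, 5, 6], [0, 1, 3, 4, 2, 5, 6]),
   (40, 6, [0, 1, 4, 2, 3, 5, 6], [0, 1, 3, 4, 2, 5, 6]),
   (41, 14, [0, 1, 4, 2, 3, 5, 6], [0, 1, 3, 4, 2, 5, 6]),
   (42, 7, [0, 1, 4, 2, 3, 5, 6], [0, 1, 3, 4, 2, 5, 6]),
   (43, 15, [0, 1, 4, 2, 3, 5, 6], [0, 1, 3, 4, 2, 5, 6]),
   (48, 6, [0, 4, 1, 2, 3, 5, 6], [0, 2, 3, 4, 1, 5, 6]),
   (52, 7, [0, 4, 1, 2, 3, 5, 6], [0, 2, 3, 4, 1, 5, 6]),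
   (56, 56, [0, 1, 2, 3, 4, 5, 6], [0, 1, 2, 3, 4, 5, 6]),
   (57, 57, [0, 1, 2, 3, 4, 5, 6], [0, 1, 2, 3, 4, 5, 6]),
   (58, 57, [0, 1, 3, 2, 4, 5, 6], [0, 1, 3, 2, 4, 5, 6]),
   (59, 59, [0, 1, 2, 3, 4, 5, 6], [0, 1, 2, 3, 4, 5, 6]),
   (60, 57, [0, 3, 1, 2, 4, 5, 6], [0, 2, 3, 1, 4, 5, 6]),
   (62, 62, [0, 1, 2, 3, 4, 5, 6], [0, 1, 2, 3, 4, 5, 6]),
   (63, 63, [0, 1, 2, 3, 4, 5, 6], [0, 1, 2, 3, 4, 5, 6]),
   (64, 1, [0, 1, 3, 4, 5, 2, 6], [0, 1, 5, 2, 3, 4, 6]),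
   (65, 3, [0, 1, 2, 4, 5, 3, 6], [0, 1, 2, 5, 3, 4, 6]),
   (66, 3, [0, 1, 4, 2, 5, 3, 6], [0, 1, 3, 5, 2, 4, 6]),
   (67, 11, [0, 1, 2, 3, 5, 4, 6], [0, 1, 2, 3, 5, 4, 6]),
   (68, 12, [0, 1, 2, 3, 5, 4, 6], [0, 1, 2, 3, 5, 4, 6]),
   (70, 14, [0, 1, 2, 3, 5, 4, 6], [0, 1, 2, 3, 5, 4, 6]),
   (71, 15, [0, 1, 2, 3, 5, 4, 6], [0, 1, 2, 3, 5, 4, 6]),
   (72, 3, [0, 1, 4, 5, 2, 3, 6], [0, 1, 4, 5, 2, 3, 6]),
   (73, 11, [0, 1, 2, 5, 3, 4, 6], [0, 1, 2, 4, 5, 3, 6]),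
   (74, 11, [0, 1, 5, 2, 3, 4, 6], [0, 1, 3, 4, 5, 2, 6]),
   (75, 75, [0, 1, 2, 3, 4, 5, 6], [0, 1, 2, 3, 4, 5, 6]),
   (76, 76, [0, 1, 2, 3, 4, 5, 6], [0, 1, 2, 3, 4, 5, 6]),
   (78, 78, [0, 1, 2, 3, 4, 5, 6], [0, 1, 2, 3, 4, 5, 6]),
   (79, 79, [0, 1, 2, 3, 4, 5, 6], [0, 1, 2, 3, 4, 5, 6]),
   (80, 12, [0, 1, 2, 5, 3, 4, 6], [0, 1, 2, 4, 5, 3, 6]),
   (82, 76, [0, 1, 2, 4, 3, 5, 6], [0, 1, 2, 4, 3, 5, 6]),
   (84, 76, [0, 2, 1, 4, 5, 3, 6], [0, 2, 1, 5, 3, 4, 6]),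
   (86, 86, [0, 1, 2, 3, 4, 5, 6], [0, 1, 2, 3, 4, 5, 6]),
   (88, 14, [0, 1, 2, 5, 3, 4, 6], [0, 1, 2, 4, 5, 3, 6]),
   (89, 15, [0, 1, 2, 5, 3, 4, 6], [0, 1, 2, 4, 5, 3, 6]),
   (90, 78, [0, 1, 2, 4, 3, 5, 6], [0, 1, 2, 4, 3, 5, 6]),
   (91, 79, [0, 1, 2, 4, 3, 5, 6], [0, 1, 2, 4, 3, 5, 6]),
   (92, 86, [0, 1, 2, 4, 3, 5, 6], [0, 1, 2, 4, 3, 5, 6]),
   (95, 95, [0, 1, 2, 3, 4, 5, 6], [0, 1, 2, 3, 4, 5, 6]),
   (96, 12, [0, 1, 5, 2, 3, 4, 6], [0, 1, 3, 4, 5, 2, 6]),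
   (97, 76, [0, 1, 4, 2, 3, 5, 6], [0, 1, 3, 4, 2, 5, 6]),
   (104, 14, [0, 1, 5, 2, 3, 4, 6], [0, 1, 3, 4, 5, 2, 6]),
   (105, 78, [0, 1, 4, 2, 3, 5, 6], [0, 1, 3, 4, 2, 5, 6]),
   (106, 15, [0, 1, 5, 2, 3, 4, 6], [0, 1, 3, 4, 5, 2, 6]),
   (107, 79, [0, 1, 4, 2, 3, 5, 6], [0, 1, 3, 4, 2, 5, 6]),
   (112, 112, [0, 1, 2, 3, 4, 5, 6], [0, 1, 2, 3, 4, 5, 6]),
   (116, 116, [0, 1, 2, 3, 4, 5, 6], [0, 1, 2, 3, 4, 5, 6]),
   (120, 120, [0, 1, 2, 3, 4, 5, 6], [0, 1, 2, 3, 4, 5, 6]),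
   (121, 121, [0, 1, 2, 3, 4, 5, 6], [0, 1, 2, 3, 4, 5, 6]),
   (122, 121, [0, 1, 3, 2, 4, 5, 6], [0, 1, 3, 2, 4, 5, 6]),
   (123, 123, [0, 1, 2, 3, 4, 5, 6], [0, 1, 2, 3, 4, 5, 6]),
   (124, 124, [0, 1, 2, 3, 4, 5, 6], [0, 1, 2, 3, 4, 5, 6]),
   (126, 126, [0, 1, 2, 3, 4, 5, 6], [0, 1, 2, 3, 4, 5, 6]),
   (127, 127, [0, 1, 2, 3, 4, 5, 6], [0, 1, 2, 3, 4, 5, 6]),
   (128, 1, [0, 3, 1, 4, 5, 2, 6], [0, 2, 5, 1, 3, 4, 6]),
   (130, 12, [0, 1, 2, 4, 5, 3, 6], [0, 1, 2, 5, 3, 4, 6]),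
   (132, 3, [0, 4, 1, 2, 5, 3, 6], [0, 2, 3, 5, 1, 4, 6]),
   (134, 14, [0, 2, 1, 3, 5, 4, 6], [0, 2, 1, 3, 5, 4, 6]),
   (136, 12, [0, 1, 2, 5, 4, 3, 6], [0, 1, 2, 5, 4, 3, 6]),
   (138, 76, [0, 1, 2, 4, 5, 3, 6], [0, 1, 2, 5, 3, 4, 6]),
   (140, 76, [0, 2, 1, 4, 3, 5, 6], [0, 2, 1, 4, 3, 5, 6]),
   (142, 86, [0, 1, 2, 3, 5, 4, 6], [0, 1, 2, 3, 5, 4, 6]),
   (144, 3, [0, 4, 1, 5, 2, 3, 6], [0, 2, 4, 5, 1, 3, 6]),
   (146, 76, [0, 2, 1, 3, 4, 5, 6], [0, 2, 1, 3, 4, 5, 6]),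
   (148, 11, [0, 5, 1, 2, 3, 4, 6], [0, 2, 3, 4, 5, 1, 6]),
   (150, 78, [0, 2, 1, 3, 4, 5, 6], [0, 2, 1, 3, 4, 5, 6]),
   (152, 14, [0, 2, 1, 5, 3, 4, 6], [0, 2, 1, 4, 5, 3, 6]),
   (154, 86, [0, 1, 2, 5, 3, 4, 6], [0, 1, 2, 4, 5, 3, 6]),
   (156, 78, [0, 2, 1, 4, 3, 5, 6], [0, 2, 1, 4, 3, 5, 6]),
   (160, 12, [0, 5, 1, 2, 3, 4, 6], [0, 2, 3, 4, 5, 1, 6]),
   (168, 112, [0, 2, 1, 3, 4, 5, 6], [0, 2, 1, 3, 4, 5, 6]),
   (170, 116, [0, 2, 1, 3, 4, 5, 6], [0, 2, 1, 3, 4, 5, 6]),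
   (176, 14, [0, 5, 1, 2, 3, 4, 6], [0, 2, 3, 4, 5, 1, 6]),
   (180, 15, [0, 5, 1, 2, 3, 4, 6], [0, 2, 3, 4, 5, 1, 6]),
   (184, 120, [0, 2, 1, 3, 4, 5, 6], [0, 2, 1, 3, 4, 5, 6]),
   (186, 124, [0, 2, 1, 3, 4, 5, 6], [0, 2, 1, 3, 4, 5, 6]),
   (188, 121, [0, 3, 1, 2, 4, 5, 6], [0, 2, 3, 1, 4, 5, 6]),
   (190, 126, [0, 2, 1, 3, 4, 5, 6], [0, 2, 1, 3, 4, 5, 6]),
   (192, 6, [0, 1, 2, 4, 5, 3, 6], [0, 1, 2, 5, 3, 4, 6]),
   (193, 7, [0, 1, 2, 4, 5, 3, 6], [0, 1, 2, 5, 3, 4, 6]),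
   (194, 14, [0, 1, 2, 4, 5, 3, 6], [0, 1, 2, 5, 3, 4, 6]),
   (195, 15, [0, 1, 2, 4, 5, 3, 6], [0, 1, 2, 5, 3, 4, 6]),
   (196, 14, [0, 2, 1, 4, 5, 3, 6], [0, 2, 1, 5, 3, 4, 6]),
   (199, 31, [0, 1, 2, 3, 5, 4, 6], [0, 1, 2, 3, 5, 4, 6]),
   (200, 14, [0, 1, 2, 5, 4, 3, 6], [0, 1, 2, 5, 4, 3, 6]),
   (201, 15, [0, 1, 2, 5, 4, 3, 6], [0, 1, 2, 5, 4, 3, 6]),
   (202, 78, [0, 1, 2, 4, 5, 3, 6], [0, 1, 2, 5, 3, 4, 6]),
   (203, 79, [0, 1, 2, 4, 5, 3, 6], [0, 1, 2, 5, 3, 4, 6]),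
   (204, 86, [0, 1, 2, 4, 5, 3, 6], [0, 1, 2, 5, 3, 4, 6]),
   (207, 95, [0, 1, 2, 3, 5, 4, 6], [0, 1, 2, 3, 5, 4, 6]),
   (208, 14, [0, 2, 1, 5, 4, 3, 6], [0, 2, 1, 5, 4, 3, 6]),
   (210, 86, [0, 1, 2, 5, 4, 3, 6], [0, 1, 2, 5, 4, 3, 6]),
   (212, 78, [0, 2, 1, 4, 5, 3, 6], [0, 2, 1, 5, 3, 4, 6]),
   (217, 31, [0, 1, 2, 5, 3, 4, 6], [0, 1, 2, 4, 5, 3, 6]),
   (219, 95, [0, 1, 2, 5, 3, 4, 6], [0, 1, 2, 4, 5, 3, 6]),
   (223, 223, [0, 1, 2, 3, 4, 5, 6], [0, 1, 2, 3, 4, 5, 6]),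
   (224, 112, [0, 2, 3, 1, 5, 4, 6], [0, 3, 1, 2, 5, 4, 6]),
   (225, 116, [0, 2, 3, 1, 5, 4, 6], [0, 3, 1, 2, 5, 4, 6]),
   (232, 232, [0, 1, 2, 3, 4, 5, 6], [0, 1, 2, 3, 4, 5, 6]),
   (233, 233, [0, 1, 2, 3, 4, 5, 6], [0, 1, 2, 3, 4, 5, 6]),
   (234, 233, [0, 1, 3, 2, 5, 4, 6], [0, 1, 3, 2, 5, 4, 6]),
   (235, 235, [0, 1, 2, 3, 4, 5, 6], [0, 1, 2, 3, 4, 5, 6]),
   (240, 232, [0, 2, 1, 3, 4, 5, 6], [0, 2, 1, 3, 4, 5, 6]),
   (244, 233, [0, 3, 1, 2, 5, 4, 6], [0, 2, 3, 1, 5, 4, 6]),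
   (249, 249, [0, 1, 2, 3, 4, 5, 6], [0, 1, 2, 3, 4, 5, 6]),
   (251, 251, [0, 1, 2, 3, 4, 5, 6], [0, 1, 2, 3, 4, 5, 6]),
   (255, 255, [0, 1, 2, 3, 4, 5, 6], [0, 1, 2, 3, 4, 5, 6]),
   (256, 1, [0, 3, 4, 1, 5, 2, 6], [0, 3, 5, 1, 2, 4, 6]),
   (257, 12, [0, 1, 4, 2, 5, 3, 6], [0, 1, 3, 5, 2, 4, 6]),
   (264, 12, [0, 1, 5, 2, 4, 3, 6], [0, 1, 3, 5, 4, 2, 6]),
   (265, 76, [0, 1, 4, 2, 5, 3, 6], [0, 1, 3, 5, 2, 4, 6]),
   (272, 12, [0, 5, 1, 2, 4, 3, 6], [0, 2, 3, 5, 4, 1, 6]),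
   (280, 112, [0, 2, 3, 1, 4, 5, 6], [0, 3, 1, 2, 4, 5, 6]),
   (281, 116, [0, 2, 3, 1, 4, 5, 6], [0, 3, 1, 2, 4, 5, 6]),
   (288, 3, [0, 4, 5, 1, 2, 3, 6], [0, 3, 4, 5, 1, 2, 6]),
   (289, 76, [0, 2, 3, 1, 4, 5, 6], [0, 3, 1, 2, 4, 5, 6]),
   (296, 14, [0, 2, 5, 1, 3, 4, 6], [0, 3, 1, 4, 5, 2, 6]),
   (297, 86, [0, 1, 5, 2, 3, 4, 6], [0, 1, 3, 4, 5, 2, 6]),
   (304, 14, [0, 5, 2, 1, 3, 4, 6], [0, 3, 2, 4, 5, 1, 6]),
   (312, 120, [0, 2, 3, 1, 4, 5, 6], [0, 3, 1, 2, 4, 5, 6]),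
   (313, 124, [0, 2, 3, 1, 4, 5, 6], [0, 3, 1, 2, 4, 5, 6]),
   (320, 6, [0, 1, 4, 2, 5, 3, 6], [0, 1, 3, 5, 2, 4, 6]),
   (321, 14, [0, 1, 4, 2, 5, 3, 6], [0, 1, 3, 5, 2, 4, 6]),
   (322, 7, [0, 1, 4, 2, 5, 3, 6], [0, 1, 3, 5, 2, 4, 6]),
   (323, 15, [0, 1, 4, 2, 5, 3, 6], [0, 1, 3, 5, 2, 4, 6]),
   (328, 14, [0, 1, 5, 2, 4, 3, 6], [0, 1, 3, 5, 4, 2, 6]),
   (329, 78, [0, 1, 4, 2, 5, 3, 6], [0, 1, 3, 5, 2, 4, 6]),
   (330, 15, [0, 1, 5, 2, 4, 3, 6], [0, 1, 3, 5, 4, 2, 6]),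
   (331, 79, [0, 1, 4, 2, 5, 3, 6], [0, 1, 3, 5, 2, 4, 6]),
   (336, 112, [0, 2, 1, 3, 5, 4, 6], [0, 2, 1, 3, 5, 4, 6]),
   (338, 116, [0, 2, 1, 3, 5, 4, 6], [0, 2, 1, 3, 5, 4, 6]),
   (344, 232, [0, 1, 2, 3, 5, 4, 6], [0, 1, 2, 3, 5, 4, 6]),
   (345, 233, [0, 1, 2, 3, 5, 4, 6], [0, 1, 2, 3, 5, 4, 6]),
   (346, 233, [0, 1, 3, 2, 4, 5, 6], [0, 1, 3, 2, 4, 5, 6]),
   (347, 235, [0, 1, 2, 3, 5, 4, 6], [0, 1, 2, 3, 5, 4, 6]),
   (352, 14, [0, 2, 5, 1, 4, 3, 6], [0, 3, 1, 5, 4, 2, 6]),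
   (353, 86, [0, 1, 5, 2, 4, 3, 6], [0, 1, 3, 5, 4, 2, 6]),
   (362, 31, [0, 1, 5, 2, 3, 4, 6], [0, 1, 3, 4, 5, 2, 6]),
   (363, 95, [0, 1, 5, 2, 3, 4, 6], [0, 1, 3, 4, 5, 2, 6]),
   (368, 232, [0, 2, 3, 1, 4, 5, 6], [0, 3, 1, 2, 4, 5, 6]),
   (378, 249, [0, 1, 3, 2, 4, 5, 6], [0, 1, 3, 2, 4, 5, 6]),
   (379, 251, [0, 1, 3, 2, 4, 5, 6], [0, 1, 3, 2, 4, 5, 6]),
   (384, 6, [0, 4, 1, 2, 5, 3, 6], [0, 2, 3, 5, 1, 4, 6]),
   (388, 7, [0, 4, 1, 2, 5, 3, 6], [0, 2, 3, 5, 1, 4, 6]),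
   (392, 112, [0, 1, 2, 3, 5, 4, 6], [0, 1, 2, 3, 5, 4, 6]),
   (396, 116, [0, 1, 2, 3, 5, 4, 6], [0, 1, 2, 3, 5, 4, 6]),
   (400, 14, [0, 5, 1, 2, 4, 3, 6], [0, 2, 3, 5, 4, 1, 6]),
   (404, 15, [0, 5, 1, 2, 4, 3, 6], [0, 2, 3, 5, 4, 1, 6]),
   (408, 232, [0, 2, 1, 3, 5, 4, 6], [0, 2, 1, 3, 5, 4, 6]),
   (412, 233, [0, 3, 1, 2, 4, 5, 6], [0, 2, 3, 1, 4, 5, 6]),
   (416, 14, [0, 5, 2, 1, 4, 3, 6], [0, 3, 2, 5, 4, 1, 6]),
   (424, 232, [0, 2, 3, 1, 5, 4, 6], [0, 3, 1, 2, 5, 4, 6]),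
   (436, 31, [0, 5, 1, 2, 3, 4, 6], [0, 2, 3, 4, 5, 1, 6]),
   (444, 249, [0, 3, 1, 2, 4, 5, 6], [0, 2, 3, 1, 4, 5, 6]),
   (448, 56, [0, 1, 2, 3, 5, 4, 6], [0, 1, 2, 3, 5, 4, 6]),
   (449, 57, [0, 1, 2, 3, 5, 4, 6], [0, 1, 2, 3, 5, 4, 6]),
   (450, 57, [0, 1, 3, 2, 5, 4, 6], [0, 1, 3, 2, 5, 4, 6]),
   (451, 59, [0, 1, 2, 3, 5, 4, 6], [0, 1, 2, 3, 5, 4, 6]),
   (452, 57, [0, 3, 1, 2, 5, 4, 6], [0, 2, 3, 1, 5, 4, 6]),
   (454, 62, [0, 1, 2, 3, 5, 4, 6], [0, 1, 2, 3, 5, 4, 6]),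
   (455, 63, [0, 1, 2, 3, 5, 4, 6], [0, 1, 2, 3, 5, 4, 6]),
   (456, 120, [0, 1, 2, 3, 5, 4, 6], [0, 1, 2, 3, 5, 4, 6]),
   (457, 121, [0, 1, 2, 3, 5, 4, 6], [0, 1, 2, 3, 5, 4, 6]),
   (458, 121, [0, 1, 3, 2, 5, 4, 6], [0, 1, 3, 2, 5, 4, 6]),
   (459, 123, [0, 1, 2, 3, 5, 4, 6], [0, 1, 2, 3, 5, 4, 6]),
   (460, 124, [0, 1, 2, 3, 5, 4, 6], [0, 1, 2, 3, 5, 4, 6]),
   (462, 126, [0, 1, 2, 3, 5, 4, 6], [0, 1, 2, 3, 5, 4, 6]),
   (463, 127, [0, 1, 2, 3, 5, 4, 6], [0, 1, 2, 3, 5, 4, 6]),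
   (464, 120, [0, 2, 1, 3, 5, 4, 6], [0, 2, 1, 3, 5, 4, 6]),
   (466, 124, [0, 2, 1, 3, 5, 4, 6], [0, 2, 1, 3, 5, 4, 6]),
   (468, 121, [0, 3, 1, 2, 5, 4, 6], [0, 2, 3, 1, 5, 4, 6]),
   (470, 126, [0, 2, 1, 3, 5, 4, 6], [0, 2, 1, 3, 5, 4, 6]),
   (473, 249, [0, 1, 2, 3, 5, 4, 6], [0, 1, 2, 3, 5, 4, 6]),
   (475, 251, [0, 1, 2, 3, 5, 4, 6], [0, 1, 2, 3, 5, 4, 6]),
   (479, 255, [0, 1, 2, 3, 5, 4, 6], [0, 1, 2, 3, 5, 4, 6]),
   (480, 120, [0, 2, 3, 1, 5, 4, 6], [0, 3, 1, 2, 5, 4, 6]),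
   (481, 124, [0, 2, 3, 1, 5, 4, 6], [0, 3, 1, 2, 5, 4, 6]),
   (490, 249, [0, 1, 3, 2, 5, 4, 6], [0, 1, 3, 2, 5, 4, 6]),
   (491, 251, [0, 1, 3, 2, 5, 4, 6], [0, 1, 3, 2, 5, 4, 6]),
   (500, 249, [0, 3, 1, 2, 5, 4, 6], [0, 2, 3, 1, 5, 4, 6]),
   (510, 510, [0, 1, 2, 3, 4, 5, 6], [0, 1, 2, 3, 4, 5, 6]),
   (511, 511, [0, 1, 2, 3, 4, 5, 6], [0, 1, 2, 3, 4, 5, 6]),
   (512, 1, [0, 3, 4, 5, 1, 2, 6], [0, 4, 5, 1, 2, 3, 6]),
   (513, 12, [0, 1, 4, 5, 2, 3, 6], [0, 1, 4, 5, 2, 3, 6]),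
   (514, 12, [0, 1, 5, 4, 2, 3, 6], [0, 1, 4, 5, 3, 2, 6]),
   (515, 76, [0, 1, 4, 5, 2, 3, 6], [0, 1, 4, 5, 2, 3, 6]),
   (516, 12, [0, 5, 1, 4, 2, 3, 6], [0, 2, 4, 5, 3, 1, 6]),
   (518, 112, [0, 2, 3, 4, 1, 5, 6], [0, 4, 1, 2, 3, 5, 6]),
   (519, 116, [0, 2, 3, 4, 1, 5, 6], [0, 4, 1, 2, 3, 5, 6]),
   (576, 6, [0, 1, 4, 5, 2, 3, 6], [0, 1, 4, 5, 2, 3, 6]),
   (577, 14, [0, 1, 4, 5, 2, 3, 6], [0, 1, 4, 5, 2, 3, 6]),
   (578, 14, [0, 1, 5, 4, 2, 3, 6], [0, 1, 4, 5, 3, 2, 6]),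
   (579, 78, [0, 1, 4, 5, 2, 3, 6], [0, 1, 4, 5, 2, 3, 6]),
   (580, 112, [0, 2, 1, 5, 3, 4, 6], [0, 2, 1, 4, 5, 3, 6]),
   (582, 232, [0, 1, 2, 5, 3, 4, 6], [0, 1, 2, 4, 5, 3, 6]),
   (583, 233, [0, 1, 2, 5, 3, 4, 6], [0, 1, 2, 4, 5, 3, 6]),
   (584, 7, [0, 1, 4, 5, 2, 3, 6], [0, 1, 4, 5, 2, 3, 6]),
   (585, 15, [0, 1, 4, 5, 2, 3, 6], [0, 1, 4, 5, 2, 3, 6]),
   (586, 15, [0, 1, 5, 4, 2, 3, 6], [0, 1, 4, 5, 3, 2, 6]),
   (587, 79, [0, 1, 4, 5, 2, 3, 6], [0, 1, 4, 5, 2, 3, 6]),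
   (588, 116, [0, 2, 1, 5, 3, 4, 6], [0, 2, 1, 4, 5, 3, 6]),
   (590, 233, [0, 1, 3, 4, 2, 5, 6], [0, 1, 4, 2, 3, 5, 6]),
   (591, 235, [0, 1, 2, 5, 3, 4, 6], [0, 1, 2, 4, 5, 3, 6]),
   (640, 6, [0, 4, 1, 5, 2, 3, 6], [0, 2, 4, 5, 1, 3, 6]),
   (642, 112, [0, 1, 2, 5, 3, 4, 6], [0, 1, 2, 4, 5, 3, 6]),
   (644, 14, [0, 5, 1, 4, 2, 3, 6], [0, 2, 4, 5, 3, 1, 6]),
   (646, 232, [0, 2, 1, 5, 3, 4, 6], [0, 2, 1, 4, 5, 3, 6]),
   (656, 7, [0, 4, 1, 5, 2, 3, 6], [0, 2, 4, 5, 1, 3, 6]),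
   (658, 116, [0, 1, 2, 5, 3, 4, 6], [0, 1, 2, 4, 5, 3, 6]),
   (660, 15, [0, 5, 1, 4, 2, 3, 6], [0, 2, 4, 5, 3, 1, 6]),
   (662, 233, [0, 3, 1, 4, 2, 5, 6], [0, 2, 4, 1, 3, 5, 6]),
   (704, 56, [0, 1, 2, 5, 3, 4, 6], [0, 1, 2, 4, 5, 3, 6]),
   (705, 57, [0, 1, 2, 5, 3, 4, 6], [0, 1, 2, 4, 5, 3, 6]),
   (706, 120, [0, 1, 2, 5, 3, 4, 6], [0, 1, 2, 4, 5, 3, 6]),
   (707, 121, [0, 1, 2, 5, 3, 4, 6], [0, 1, 2, 4, 5, 3, 6]),
   (708, 120, [0, 2, 1, 5, 3, 4, 6], [0, 2, 1, 4, 5, 3, 6]),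
   (711, 249, [0, 1, 2, 5, 3, 4, 6], [0, 1, 2, 4, 5, 3, 6]),
   (712, 57, [0, 1, 3, 5, 2, 4, 6], [0, 1, 4, 2, 5, 3, 6]),
   (713, 59, [0, 1, 2, 5, 3, 4, 6], [0, 1, 2, 4, 5, 3, 6]),
   (714, 121, [0, 1, 3, 5, 2, 4, 6], [0, 1, 4, 2, 5, 3, 6]),
   (715, 123, [0, 1, 2, 5, 3, 4, 6], [0, 1, 2, 4, 5, 3, 6]),
   (716, 124, [0, 2, 1, 5, 3, 4, 6], [0, 2, 1, 4, 5, 3, 6]),
   (719, 251, [0, 1, 2, 5, 3, 4, 6], [0, 1, 2, 4, 5, 3, 6]),
   (720, 57, [0, 3, 1, 5, 2, 4, 6], [0, 2, 4, 1, 5, 3, 6]),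
   (722, 124, [0, 1, 2, 5, 3, 4, 6], [0, 1, 2, 4, 5, 3, 6]),
   (724, 121, [0, 3, 1, 5, 2, 4, 6], [0, 2, 4, 1, 5, 3, 6]),
   (728, 62, [0, 1, 2, 5, 3, 4, 6], [0, 1, 2, 4, 5, 3, 6]),
   (729, 63, [0, 1, 2, 5, 3, 4, 6], [0, 1, 2, 4, 5, 3, 6]),
   (730, 126, [0, 1, 2, 5, 3, 4, 6], [0, 1, 2, 4, 5, 3, 6]),
   (731, 127, [0, 1, 2, 5, 3, 4, 6], [0, 1, 2, 4, 5, 3, 6]),
   (732, 126, [0, 2, 1, 5, 3, 4, 6], [0, 2, 1, 4, 5, 3, 6]),
   (735, 255, [0, 1, 2, 5, 3, 4, 6], [0, 1, 2, 4, 5, 3, 6]),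
   (768, 6, [0, 4, 5, 1, 2, 3, 6], [0, 3, 4, 5, 1, 2, 6]),
   (769, 112, [0, 1, 5, 2, 3, 4, 6], [0, 1, 3, 4, 5, 2, 6]),
   (800, 7, [0, 4, 5, 1, 2, 3, 6], [0, 3, 4, 5, 1, 2, 6]),
   (801, 116, [0, 1, 5, 2, 3, 4, 6], [0, 1, 3, 4, 5, 2, 6]),
   (832, 56, [0, 1, 5, 2, 3, 4, 6], [0, 1, 3, 4, 5, 2, 6]),
   (833, 120, [0, 1, 5, 2, 3, 4, 6], [0, 1, 3, 4, 5, 2, 6]),
   (834, 57, [0, 1, 5, 2, 3, 4, 6], [0, 1, 3, 4, 5, 2, 6]),
   (835, 121, [0, 1, 5, 2, 3, 4, 6], [0, 1, 3, 4, 5, 2, 6]),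
   (840, 57, [0, 1, 5, 3, 2, 4, 6], [0, 1, 4, 3, 5, 2, 6]),
   (841, 121, [0, 1, 5, 3, 2, 4, 6], [0, 1, 4, 3, 5, 2, 6]),
   (842, 59, [0, 1, 5, 2, 3, 4, 6], [0, 1, 3, 4, 5, 2, 6]),
   (843, 123, [0, 1, 5, 2, 3, 4, 6], [0, 1, 3, 4, 5, 2, 6]),
   (864, 57, [0, 3, 5, 1, 2, 4, 6], [0, 3, 4, 1, 5, 2, 6]),
   (865, 124, [0, 1, 5, 2, 3, 4, 6], [0, 1, 3, 4, 5, 2, 6]),
   (872, 62, [0, 1, 5, 2, 3, 4, 6], [0, 1, 3, 4, 5, 2, 6]),
   (873, 126, [0, 1, 5, 2, 3, 4, 6], [0, 1, 3, 4, 5, 2, 6]),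
   (874, 63, [0, 1, 5, 2, 3, 4, 6], [0, 1, 3, 4, 5, 2, 6]),
   (875, 127, [0, 1, 5, 2, 3, 4, 6], [0, 1, 3, 4, 5, 2, 6]),
   (896, 56, [0, 5, 1, 2, 3, 4, 6], [0, 2, 3, 4, 5, 1, 6]),
   (900, 57, [0, 5, 1, 2, 3, 4, 6], [0, 2, 3, 4, 5, 1, 6]),
   (912, 57, [0, 5, 1, 3, 2, 4, 6], [0, 2, 4, 3, 5, 1, 6]),
   (916, 59, [0, 5, 1, 2, 3, 4, 6], [0, 2, 3, 4, 5, 1, 6]),
   (928, 57, [0, 5, 3, 1, 2, 4, 6], [0, 3, 4, 2, 5, 1, 6]),
   (944, 62, [0, 5, 1, 2, 3, 4, 6], [0, 2, 3, 4, 5, 1, 6]),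
   (948, 63, [0, 5, 1, 2, 3, 4, 6], [0, 2, 3, 4, 5, 1, 6]),
   (960, 960, [0, 1, 2, 3, 4, 5, 6], [0, 1, 2, 3, 4, 5, 6]),
   (961, 961, [0, 1, 2, 3, 4, 5, 6], [0, 1, 2, 3, 4, 5, 6]),
   (962, 961, [0, 1, 3, 2, 4, 5, 6], [0, 1, 3, 2, 4, 5, 6]),
   (963, 963, [0, 1, 2, 3, 4, 5, 6], [0, 1, 2, 3, 4, 5, 6]),
   (964, 961, [0, 3, 1, 2, 4, 5, 6], [0, 2, 3, 1, 4, 5, 6]),
   (966, 966, [0, 1, 2, 3, 4, 5, 6], [0, 1, 2, 3, 4, 5, 6]),
   (967, 967, [0, 1, 2, 3, 4, 5, 6], [0, 1, 2, 3, 4, 5, 6]),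
   (968, 961, [0, 1, 3, 4, 2, 5, 6], [0, 1, 4, 2, 3, 5, 6]),
   (969, 963, [0, 1, 2, 4, 3, 5, 6], [0, 1, 2, 4, 3, 5, 6]),
   (970, 963, [0, 1, 4, 2, 3, 5, 6], [0, 1, 3, 4, 2, 5, 6]),
   (971, 971, [0, 1, 2, 3, 4, 5, 6], [0, 1, 2, 3, 4, 5, 6]),
   (972, 972, [0, 1, 2, 3, 4, 5, 6], [0, 1, 2, 3, 4, 5, 6]),
   (974, 974, [0, 1, 2, 3, 4, 5, 6], [0, 1, 2, 3, 4, 5, 6]),
   (975, 975, [0, 1, 2, 3, 4, 5, 6], [0, 1, 2, 3, 4, 5, 6]),
   (976, 961, [0, 3, 1, 4, 2, 5, 6], [0, 2, 4, 1, 3, 5, 6]),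
   (978, 972, [0, 1, 2, 4, 3, 5, 6], [0, 1, 2, 4, 3, 5, 6]),
   (980, 963, [0, 4, 1, 2, 3, 5, 6], [0, 2, 3, 4, 1, 5, 6]),
   (982, 974, [0, 2, 1, 3, 4, 5, 6], [0, 2, 1, 3, 4, 5, 6]),
   (984, 966, [0, 1, 2, 4, 3, 5, 6], [0, 1, 2, 4, 3, 5, 6]),
   (985, 967, [0, 1, 2, 4, 3, 5, 6], [0, 1, 2, 4, 3, 5, 6]),
   (986, 974, [0, 1, 2, 4, 3, 5, 6], [0, 1, 2, 4, 3, 5, 6]),
   (987, 975, [0, 1, 2, 4, 3, 5, 6], [0, 1, 2, 4, 3, 5, 6]),
   (988, 974, [0, 2, 1, 4, 3, 5, 6], [0, 2, 1, 4, 3, 5, 6]),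
   (991, 991, [0, 1, 2, 3, 4, 5, 6], [0, 1, 2, 3, 4, 5, 6]),
   (992, 961, [0, 3, 4, 1, 2, 5, 6], [0, 3, 4, 1, 2, 5, 6]),
   (993, 972, [0, 1, 4, 2, 3, 5, 6], [0, 1, 3, 4, 2, 5, 6]),
   (1000, 966, [0, 1, 4, 2, 3, 5, 6], [0, 1, 3, 4, 2, 5, 6]),
   (1001, 974, [0, 1, 4, 2, 3, 5, 6], [0, 1, 3, 4, 2, 5, 6]),
   (1002, 967, [0, 1, 4, 2, 3, 5, 6], [0, 1, 3, 4, 2, 5, 6]),
   (1003, 975, [0, 1, 4, 2, 3, 5, 6], [0, 1, 3, 4, 2, 5, 6]),
   (1008, 966, [0, 4, 1, 2, 3, 5, 6], [0, 2, 3, 4, 1, 5, 6]),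
   (1012, 967, [0, 4, 1, 2, 3, 5, 6], [0, 2, 3, 4, 1, 5, 6]),
   (1016, 1016, [0, 1, 2, 3, 4, 5, 6], [0, 1, 2, 3, 4, 5, 6]),
   (1017, 1017, [0, 1, 2, 3, 4, 5, 6], [0, 1, 2, 3, 4, 5, 6]),
   (1018, 1017, [0, 1, 3, 2, 4, 5, 6], [0, 1, 3, 2, 4, 5, 6]),
   (1019, 1019, [0, 1, 2, 3, 4, 5, 6], [0, 1, 2, 3, 4, 5, 6]),
   (1020, 1017, [0, 3, 1, 2, 4, 5, 6], [0, 2, 3, 1, 4, 5, 6]),
   (1022, 1022, [0, 1, 2, 3, 4, 5, 6], [0, 1, 2, 3, 4, 5, 6]),
   (1023, 1023, [0, 1, 2, 3, 4, 5, 6], [0, 1, 2, 3, 4, 5, 6])]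

def canon7 : List ℕ := [0, 1, 3, 6, 7, 11, 12, 14, 15, 31, 56, 57, 59, 62, 63, 75, 76, 78, 79, 86, 95, 112, 116, 120, 121, 123, 124, 126, 127, 223, 232, 233, 235, 249, 251, 255, 510, 511, 960, 961, 963, 966, 967, 971, 972, 974, 975, 991, 1016, 1017, 1019, 1022, 1023]

theorem entriesOK7 : entriesOK 7 canon7 table7 = true := by decide +kernel

theorem covers7 : covers 7 1024 table7 = true := by decide +kernel

theorem canonRep7 (hext : Representable (FO 7 14)) : ∀ c ∈ canon7, Representable (FO 7 c) := by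
  intro c hc
  simp only [canon7, List.mem_cons, List.not_mem_nil, or_false] at hc
  rcases hc with rfl | rfl | rfl | rfl | rfl | rfl | rfl | rfl | rfl | rfl | rfl | rfl | rfl | rfl | rfl | rfl | rfl | rfl | rfl | rfl | rfl | rfl | rfl | rfl | rfl | rfl | rfl | rfl | rfl | rfl | rfl | rfl | rfl | rfl | rfl | rfl | rfl | rfl | rfl | rfl | rfl | rfl | rfl | rfl | rfl | rfl | rfl | rfl | rfl | rfl | rfl | rfl | rfl
  · exact r7_0
  · exact r7_1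
  · exact r7_3
  · exact r7_6
  · exact r7_7
  · exact r7_11
  · exact r7_12
  · exact hext
  · exact r7_15
  · exact r7_31
  · exact r7_56
  · exact r7_57
  · exact r7_59
  · exact r7_62
  · exact r7_63
  · exact r7_75
  · exact r7_76
  · exact r7_78
  · exact r7_79
  · exact r7_86
  · exact r7_95
  · exact r7_112
  · exact r7_116
  · exact r7_120
  · exact r7_121
  · exact r7_123
  · exact r7_124
  · exact r7_126
  · exact r7_127
  · exact r7_223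
  · exact r7_232
  · exact r7_233
  · exact r7_235
  · exact r7_249
  · exact r7_251
  · exact r7_255
  · exact r7_510
  · exact r7_511
  · exact r7_960
  · exact r7_961
  · exact r7_963
  · exact r7_966
  · exact r7_967
  · exact r7_971
  · exact r7_972
  · exact r7_974
  · exact r7_975
  · exact r7_991
  · exact r7_1016
  · exact r7_1017
  · exact r7_1019
  · exact r7_1022
  · exact r7_1023

end Vale.Agent.P183
end

section

/-!
Every finite lattice with at most seven elements is isomorphic to a coded one.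
-/

namespace Vale.Agent.P183

theorem exists_testBit (K : ℕ) (p : ℕ → Bool) :
    ∃ b, b < 2 ^ K ∧ ∀ i, i < K → Nat.testBit b i = p i := by
  induction K with
  | zero => exact ⟨0, by simp, by simp⟩
  | succ K ih =>
    obtain ⟨b, hb, h⟩ := ih
    cases hp : p K with
    | false =>
      refine ⟨b, lt_trans hb (Nat.pow_lt_pow_right (by norm_num) (Nat.lt_succ_self K)), ?_⟩
      intro i hi
      rcases Nat.lt_succ_iff_lt_or_eq.1 hi with h1 | h1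
      · exact h i h1
      · subst h1; rw [hp]; exact Nat.testBit_lt_two_pow hb
    | true =>
      refine ⟨2 ^ K + b, by rw [pow_succ]; omega, ?_⟩
      intro i hi
      rcases Nat.lt_succ_iff_lt_or_eq.1 hi with h1 | h1
      · rw [Nat.testBit_two_pow_add_gt h1]; exact h i h1
      · subst h1
        rw [Nat.testBit_two_pow_add_eq, Nat.testBit_lt_two_pow hb, hp]; rfl

/-- The position of the bit of the pair `(x, y)`. -/
def idx (x y : ℕ) : ℕ := (y - 1) * (y - 2) / 2 + (x - 1)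

theorem idx_inj_aux : (allN 7 fun x => allN 7 fun y => allN 7 fun x' => allN 7 fun y' =>
    impB (Nat.blt 0 x && Nat.blt x y && Nat.blt 0 x' && Nat.blt x' y' && (idx x y == idx x' y'))
      (x == x' && y == y')) = true := by
  decide +kernel

theorem idx_inj (x : ℕ) (h1 : x < 7) (y : ℕ) (h2 : y < 7) (x' : ℕ) (h3 : x' < 7) (y' : ℕ)
    (h4 : y' < 7) (h5 : 0 < x) (h6 : x < y) (h7 : 0 < x') (h8 : x' < y')
    (h9 : idx x y = idx x' y') : x = x' ∧ y = y' := by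
  have h := allN_iff.1 (allN_iff.1 (allN_iff.1 (allN_iff.1 idx_inj_aux x h1) y h2) x' h3) y' h4
  rw [impB_iff] at h
  have h' := h (by simp only [Bool.and_eq_true, Nat.blt_eq, beq_iff_eq]; exact ⟨⟨⟨⟨h5, h6⟩, h7⟩, h8⟩, h9⟩)
  simpa using h'

theorem idx_lt_aux : (allN 8 fun n => allN 7 fun y => allN 7 fun x =>
    impB (Nat.blt 0 x && Nat.blt x y && Nat.blt (y + 1) n)
      (Nat.blt (idx x y) ((n - 2) * (n - 3) / 2))) = true := by
  decide +kernel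

theorem idx_lt (n : ℕ) (h1 : n < 8) (y : ℕ) (h2 : y < 7) (x : ℕ) (h3 : x < 7) (h4 : 0 < x)
    (h5 : x < y) (h6 : y + 1 < n) : idx x y < (n - 2) * (n - 3) / 2 := by
  have h := allN_iff.1 (allN_iff.1 (allN_iff.1 idx_lt_aux n h1) y h2) x h3
  rw [impB_iff] at h
  have h' := h (by simp only [Bool.and_eq_true, Nat.blt_eq]; exact ⟨⟨h4, h5⟩, h6⟩)
  simpa using h'

theorem exists_code {L : Type*} [Lattice L] [Finite L] [Nonempty L] (n : ℕ) (hn7 : n < 8)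
    (hn : Nat.card L = n) :
    ∃ b, b < 2 ^ ((n - 2) * (n - 3) / 2) ∧ isLat n b = true ∧ Nonempty (L ≃o FO n b) := by
  classical
  cases nonempty_fintype L
  have hc : Fintype.card L = n := by rw [← hn, Nat.card_eq_fintype_card]
  let _ : Fintype (LinearExtension L) := inferInstanceAs (Fintype L)
  let E : Fin n ≃o LinearExtension L := Fintype.orderIsoFinOfCardEq _ hc
  let e : L ≃ Fin n := (Equiv.refl L : L ≃ LinearExtension L).trans E.symm.toEquiv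
  have hmono : ∀ x y : L, x ≤ y → e x ≤ e y := by
    intro x y hxy
    exact E.symm.monotone ((toLinearExtension : L →o LinearExtension L).monotone hxy)
  let _ : BoundedOrder L := Fintype.toBoundedOrder L
  have hnpos : 0 < n := by rw [← hc]; exact Fintype.card_pos
  -- the relation on positions
  let m : ℕ → ℕ → Bool := fun x y =>
    if h : x < n ∧ y < n then decide (e.symm ⟨x, h.1⟩ ≤ e.symm ⟨y, h.2⟩) else false
  have hm : ∀ x y (hx : x < n) (hy : y < n), m x y = true ↔ e.symm ⟨x, hx⟩ ≤ e.symm ⟨y, hy⟩ := by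
    intro x y hx hy
    simp only [m, dif_pos (And.intro hx hy), decide_eq_true_eq]
  have hmle : ∀ x y (hx : x < n) (hy : y < n), m x y = true → x ≤ y := by
    intro x y hx hy h
    have := hmono _ _ ((hm x y hx hy).1 h)
    simpa using this
  have hbot : ∀ x (hx : x < n), m 0 x = true := by
    intro x hx
    rw [hm 0 x hnpos hx]
    have h0 : e ⊥ = ⟨0, hnpos⟩ := by
      have h1 := hmono ⊥ (e.symm ⟨0, hnpos⟩) bot_le
      rw [Equiv.apply_symm_apply] at h1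
      exact le_antisymm h1 (Nat.zero_le _)
    rw [← h0, Equiv.symm_apply_apply]
    exact bot_le
  have htop : ∀ x (hx : x < n), m x (n - 1) = true := by
    intro x hx
    have hn1 : n - 1 < n := by omega
    rw [hm x (n - 1) hx hn1]
    have h0 : e ⊤ = ⟨n - 1, hn1⟩ := by
      have h1 := hmono (e.symm ⟨n - 1, hn1⟩) ⊤ le_top
      rw [Equiv.apply_symm_apply] at h1
      refine le_antisymm ?_ h1
      have := (e ⊤).2
      show (e ⊤ : ℕ) ≤ n - 1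
      omega
    rw [← h0, Equiv.symm_apply_apply]
    exact le_top
  let K := (n - 2) * (n - 3) / 2
  let p : ℕ → Bool := fun i => decide (∃ x y, 0 < x ∧ x < y ∧ y + 1 < n ∧ idx x y = i ∧
    m x y = true)
  obtain ⟨b, hb, hbit⟩ := exists_testBit K p
  have hord : ∀ x y, x < n → y < n → ordB n b x y = m x y := by
    intro x y hx hy
    rw [Bool.eq_iff_iff]
    simp only [ordB, Bool.or_eq_true, Bool.and_eq_true, beq_iff_eq, Nat.blt_eq]
    constructor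
    · rintro (((h | h) | h) | ⟨⟨h1, h2⟩, h3⟩)
      · subst h; rw [hm x x hx hx]
      · subst h; exact hbot y hy
      · have : y = n - 1 := by omega
        subst this; exact htop x hx
      · rcases Nat.eq_zero_or_pos x with h0 | h0
        · subst h0; exact hbot y hy
        · have hk : idx x y < K := idx_lt n hn7 y (by omega) x (by omega) h0 h1 h2
          have h4 := hbit (idx x y) hk
          rw [show Nat.testBit b (idx x y) = true from h3] at h4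
          have h5 : ∃ x' y', 0 < x' ∧ x' < y' ∧ y' + 1 < n ∧ idx x' y' = idx x y ∧
            m x' y' = true := by simpa [p] using h4.symm
          obtain ⟨x', y', hx', hxy', hy', he, hmm⟩ := h5
          obtain ⟨rfl, rfl⟩ := idx_inj x' (by omega) y' (by omega) x (by omega) y (by omega)
            hx' hxy' h0 h1 he
          exact hmm
    · intro h
      have hle := hmle x y hx hy h
      by_cases h1 : x = y
      · exact Or.inl (Or.inl (Or.inl h1))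
      by_cases h2 : x = 0
      · exact Or.inl (Or.inl (Or.inr h2))
      by_cases h3 : y + 1 = n
      · exact Or.inl (Or.inr h3)
      · refine Or.inr ⟨⟨by omega, by omega⟩, ?_⟩
        have hk : idx x y < K :=
          idx_lt n hn7 y (by omega) x (by omega) (by omega) (by omega) (by omega)
        have h4 := hbit (idx x y) hk
        show Nat.testBit b (idx x y) = true
        rw [h4]
        simp only [p, decide_eq_true_eq]
        exact ⟨x, y, by omega, by omega, by omega, rfl, h⟩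
  let F : L ≃o FO n b :=
    { toFun := fun x => (e x : Fin n)
      invFun := fun x => e.symm (x : Fin n)
      left_inv := fun x => e.symm_apply_apply x
      right_inv := fun x => e.apply_symm_apply (x : Fin n)
      map_rel_iff' := by
        intro x y
        show ordB n b (e x : ℕ) (e y : ℕ) = true ↔ x ≤ y
        rw [hord _ _ (e x).2 (e y).2, hm _ _ (e x).2 (e y).2]
        simp }
  refine ⟨b, hb, ?_, ⟨F⟩⟩
  have hFle : ∀ x y : L, ordB n b (F x).v (F y).v = true ↔ x ≤ y := fun x y => F.le_iff_le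
  have hsurj : ∀ x, x < n → ∃ z : L, (F z).v = x := by
    intro x hx
    refine ⟨F.symm (FO.mk x hx), ?_⟩
    rw [OrderIso.apply_symm_apply]; rfl
  rw [isLat, Bool.and_eq_true]
  constructor
  · rw [isPO, allN_iff]
    intro x hx
    rw [allN_iff]
    intro y hy
    obtain ⟨x, rfl⟩ := hsurj x hx
    obtain ⟨y, rfl⟩ := hsurj y hy
    rw [impB_iff, Bool.and_eq_true]
    intro hxy
    constructor
    · rw [impB_iff]
      intro hyx
      rw [hFle] at hxy hyx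
      rw [le_antisymm hxy hyx]; simp
    · rw [allN_iff]
      intro z hz
      obtain ⟨z, rfl⟩ := hsurj z hz
      rw [impB_iff, hFle, hFle]
      rw [hFle] at hxy
      exact fun h => hxy.trans h
  · rw [allN_iff]
    intro x hx
    rw [allN_iff]
    intro y hy
    obtain ⟨x, rfl⟩ := hsurj x hx
    obtain ⟨y, rfl⟩ := hsurj y hy
    rw [Bool.and_eq_true, anyN_iff, anyN_iff]
    constructor
    · refine ⟨(F (x ⊔ y)).v, (F (x ⊔ y)).v_lt, ?_⟩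
      rw [isJn, Bool.and_eq_true, Bool.and_eq_true, hFle, hFle, allN_iff]
      refine ⟨⟨le_sup_left, le_sup_right⟩, ?_⟩
      intro w hw
      obtain ⟨w, rfl⟩ := hsurj w hw
      rw [impB_iff, Bool.and_eq_true, hFle, hFle, hFle]
      exact fun h => sup_le h.1 h.2
    · refine ⟨(F (x ⊓ y)).v, (F (x ⊓ y)).v_lt, ?_⟩
      rw [isMt, Bool.and_eq_true, Bool.and_eq_true, hFle, hFle, allN_iff]
      refine ⟨⟨inf_le_left, inf_le_right⟩, ?_⟩
      intro w hw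
      obtain ⟨w, rfl⟩ := hsurj w hw
      rw [impB_iff, Bool.and_eq_true, hFle, hFle, hFle]
      exact fun h => le_inf h.1 h.2

/-- If the exceptional lattice `FO 7 14` is representable, then so is every lattice with at most
seven elements. -/
theorem representable_of_card_le_seven (hL7 : Representable (FO 7 14)) (L : Type) [Lattice L]
    [Finite L] [Nonempty L] (h : Nat.card L ≤ 7) : Representable L := by
  obtain ⟨b, hb, hl, ⟨e⟩⟩ := exists_code (L := L) (Nat.card L) (by omega) rfl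
  have hpos : 0 < Nat.card L := Nat.card_pos
  refine Representable.of_iso e ?_
  generalize Nat.card L = n at *
  interval_cases n
  · exact rep_of_table entriesOK1 covers1 canonRep1 hb hl
  · exact rep_of_table entriesOK2 covers2 canonRep2 hb hl
  · exact rep_of_table entriesOK3 covers3 canonRep3 hb hl
  · exact rep_of_table entriesOK4 covers4 canonRep4 hb hl
  · exact rep_of_table entriesOK5 covers5 canonRep5 hb hl
  · exact rep_of_table entriesOK6 covers6 canonRep6 hb hl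
  · exact rep_of_table entriesOK7 covers7 (canonRep7 hL7) hb hl

end Vale.Agent.P183
end

section

/-!
Intervals of subgroup lattices of finite groups are representable.
-/

namespace Vale.Agent.P183

/-- The interval `[H, G]` in the subgroup lattice of a finite group `G` is representable. -/
theorem representable_interval (G : Type) [Group G] [Finite G] (H : Subgroup G) :
    Representable {K : Subgroup G // H ≤ K} := by
  let τ : Setoid G := QuotientGroup.leftRel H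
  let F : Set (G → G) := {f | ∃ g : G, f = fun x => g * x}
  refine representable_of_adm τ F ⟨?_⟩
  have hrel : ∀ (K : Subgroup G) (x y : G), QuotientGroup.leftRel K x y ↔ x⁻¹ * y ∈ K :=
    fun K x y => QuotientGroup.leftRel_apply
  let f : {K : Subgroup G // H ≤ K} →
      {ρ : Setoid G // τ ≤ ρ ∧ ∀ f ∈ F, ∀ b b', ρ b b' → ρ (f b) (f b')} := fun K =>
    ⟨QuotientGroup.leftRel K.1, by
      intro x y h
      have h' : x⁻¹ * y ∈ H := (hrel H x y).1 h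
      exact (hrel K.1 x y).2 (K.2 h'), by
      rintro _ ⟨g, rfl⟩ b b' h
      have h' : b⁻¹ * b' ∈ K.1 := (hrel K.1 b b').1 h
      refine (hrel K.1 _ _).2 ?_
      have : (g * b)⁻¹ * (g * b') = b⁻¹ * b' := by
        rw [mul_inv_rev, mul_assoc, inv_mul_cancel_left]
      show (g * b)⁻¹ * (g * b') ∈ K.1
      rw [this]
      exact h'⟩
  refine RelIso.ofSurjective (OrderEmbedding.ofMapLEIff f ?_) ?_
  · intro K K'
    constructor
    · intro h x hx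
      have h1 : (f K).1 1 x := (hrel K.1 1 x).2 (by simpa using hx)
      have h2 : (f K').1 1 x := h h1
      simpa using (hrel K'.1 1 x).1 h2
    · intro h x y hxy
      exact (hrel K'.1 x y).2 (h ((hrel K.1 x y).1 hxy))
  · rintro ⟨ρ, hτ, hF⟩
    have hmul : ∀ g x y, ρ x y → ρ (g * x) (g * y) := fun g x y h => hF _ ⟨g, rfl⟩ x y h
    let K : Subgroup G :=
      { carrier := {x | ρ 1 x}
        one_mem' := Setoid.refl' _ _
        mul_mem' := by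
          intro a b ha hb
          have h1 := hmul a 1 b hb
          rw [mul_one] at h1
          exact Setoid.trans' _ ha h1
        inv_mem' := by
          intro a ha
          have h1 := hmul a⁻¹ 1 a ha
          rw [mul_one, inv_mul_cancel] at h1
          exact Setoid.symm' _ h1 }
    refine ⟨⟨K, ?_⟩, ?_⟩
    · intro x hx
      refine hτ ((hrel H 1 x).2 ?_)
      simpa using hx
    · apply Subtype.ext
      apply Setoid.ext
      intro x y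
      show QuotientGroup.leftRel K x y ↔ ρ x y
      rw [hrel]
      constructor
      · intro h
        have h1 := hmul x 1 _ h
        rw [mul_one, mul_inv_cancel_left] at h1
        exact h1
      · intro h
        have h1 := hmul x⁻¹ x y h
        rw [inv_mul_cancel] at h1
        exact h1

end Vale.Agent.P183
end

section

/-!
The seven-element lattice as an interval in the subgroup lattice of `SL(2,64)`.
-/

namespace Vale.Agent.P183.L7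

open Subgroup

/-- The group. -/
abbrev G : Type := Sp F64

def e1 : F64 × F64 := (1, 0)
def e2 : F64 × F64 := (0, 1)
def e12 : F64 × F64 := (1, 1)

/-- The bottom subgroup, isomorphic to `SL(2,2)`. -/
def H0 : Subgroup G := closure {tv e1, tv e2}

/-- The seven subgroups. -/
def KK (j : ℕ) : Subgroup G := closure {tv e1, tv e2, tv (rep j)}

theorem tv_e1_mem (j : ℕ) : tv e1 ∈ KK j := subset_closure (Or.inl rfl)
theorem tv_e2_mem (j : ℕ) : tv e2 ∈ KK j := subset_closure (Or.inr (Or.inl rfl))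
theorem tv_rep_mem (j : ℕ) : tv (rep j) ∈ KK j := subset_closure (Or.inr (Or.inr rfl))

theorem H0_le (j : ℕ) : H0 ≤ KK j := by
  refine (closure_le _).2 ?_
  rintro x (hx | hx)
  · rw [hx]; exact tv_e1_mem j
  · rw [Set.mem_singleton_iff.1 hx]; exact tv_e2_mem j

theorem conj_mem {K : Subgroup G} {g : G} {v : F64 × F64} (hg : g ∈ K) (hv : tv v ∈ K) :
    tv (g.1 v) ∈ K := by
  rw [← conj_tv]
  exact K.mul_mem (K.mul_mem hg hv) (K.inv_mem hg)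

theorem tv_tvec_mem {K : Subgroup G} {u v : F64 × F64} (hu : tv u ∈ K) (hv : tv v ∈ K) :
    tv (tvec v u) ∈ K := by
  have h := conj_mem hv hu
  rwa [tv_apply] at h

theorem enc_e1' : encV e1 = 64 := enc_e1
theorem enc_e2' : encV e2 = 1 := enc_e2

/-- A generator in class `j`. -/
def gen (j g : ℕ) : F64 × F64 := decV (genN j g)

theorem genN_lt (j g : ℕ) : genN j g < 4096 := by
  unfold genN
  rcases g with _ | _ | g
  · show 64 < 4096
    decide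
  · show 1 < 4096
    decide
  · exact repN_lt j

theorem enc_gen (j g : ℕ) : encV (gen j g) = genN j g := encV_decV (genN_lt j g)

theorem tv_gen_mem (j g : ℕ) : tv (gen j g) ∈ KK j := by
  rcases g with _ | _ | g
  · have : gen j 0 = e1 := encV_inj ((enc_gen j 0).trans enc_e1.symm)
    rw [this]; exact tv_e1_mem j
  · have : gen j 1 = e2 := encV_inj ((enc_gen j 1).trans enc_e2.symm)
    rw [this]; exact tv_e2_mem j
  · exact tv_rep_mem j

/-- Lemma A: `K_j` is transitive on the `j`-th set of vectors. -/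
theorem lemmaA {j : ℕ} (hj : j < 7) : ∀ (n : ℕ) (v : F64 × F64), schN j (encV v) / 4 < n →
    Good j v → ∃ k ∈ KK j, k.1 e1 = v := by
  intro n
  induction n with
  | zero => intro v hv; exact absurd hv (Nat.not_lt_zero _)
  | succ n ih =>
    intro v hn hv
    have hc := allV_spec (allB_spec chkA_all j hj) (encV v) (encV_lt v)
    simp only [chkA, Bool.or_eq_true, Bool.and_eq_true, Bool.not_eq_true'] at hc
    rcases hc with (hc | hc) | hc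
    · have h1 : leB (clsN (encV v)) j = true := hv
      rw [h1] at hc
      exact absurd hc (by decide)
    · have h1 : v = e1 := encV_inj ((Nat.eq_of_beq_eq_true hc).trans enc_e1.symm)
      exact ⟨1, one_mem _, h1.symm⟩
    · have henc : encV (tvec (gen j (schN j (encV v) % 4)) v) =
          trN (encV v) (genN j (schN j (encV v) % 4)) := by
        rw [enc_tvec, enc_gen]
      rw [← henc] at hc
      have hlt := Nat.le_of_ble_eq_true hc.2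
      obtain ⟨k, hk, hk1⟩ := ih (tvec (gen j (schN j (encV v) % 4)) v) (by omega) hc.1
      refine ⟨tv (gen j (schN j (encV v) % 4)) * k, mul_mem (tv_gen_mem _ _) hk, ?_⟩
      rw [sp_mul_apply, hk1, tv_apply, tvec_tvec]

theorem exists_mem {j : ℕ} (hj : j < 7) {v : F64 × F64} (hv : Good j v) :
    ∃ k ∈ KK j, k.1 e1 = v := lemmaA hj _ v (Nat.lt_succ_self _) hv

theorem tv_mem {j : ℕ} (hj : j < 7) {v : F64 × F64} (hv : Good j v) : tv v ∈ KK j := by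
  obtain ⟨k, hk, rfl⟩ := exists_mem hj hv
  exact conj_mem hk (tv_e1_mem j)

theorem good_gen {j : ℕ} (hj : j < 7) {g : G} (hg : g = tv e1 ∨ g = tv e2 ∨ g = tv (rep j))
    {v : F64 × F64} (hv : Good j v) : Good j (g.1 v) := by
  have hc := allV_spec (allB_spec chkC_all j hj) (encV v) (encV_lt v)
  simp only [chkC, Bool.or_eq_true, Bool.and_eq_true, Bool.not_eq_true'] at hc
  rcases hc with hc | ⟨h1, h2, h3⟩
  · have h1 : leB (clsN (encV v)) j = true := hv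
    rw [h1] at hc
    exact absurd hc (by decide)
  · rcases hg with hg | hg | hg
    · rw [hg, tv_apply, Good, cls, enc_tvec, enc_e1']
      exact h1
    · rw [hg, tv_apply, Good, cls, enc_tvec, enc_e2']
      exact h2
    · rw [hg, tv_apply, Good, cls, enc_tvec, enc_rep]
      exact h3

theorem gen_gen {j : ℕ} {g : G} (hg : g = tv e1 ∨ g = tv e2 ∨ g = tv (rep j))
    (v : F64 × F64) : g.1 (g.1 v) = v := by
  rcases hg with hg | hg | hg
  · rw [hg, tv_apply, tv_apply, tvec_tvec]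
  · rw [hg, tv_apply, tv_apply, tvec_tvec]
  · rw [hg, tv_apply, tv_apply, tvec_tvec]

/-- Lemma C: `K_j` preserves the `j`-th set of vectors. -/
theorem lemmaC {j : ℕ} (hj : j < 7) {k : G} (hk : k ∈ KK j) :
    ∀ v, Good j v ↔ Good j (k.1 v) := by
  unfold KK at hk
  induction hk using closure_induction with
  | mem g hg =>
    intro v
    have hg' : g = tv e1 ∨ g = tv e2 ∨ g = tv (rep j) := hg
    refine ⟨good_gen hj hg', fun h => ?_⟩
    have := good_gen hj hg' h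
    rwa [gen_gen hg'] at this
  | one => intro v; exact Iff.rfl
  | mul x y _ _ hx hy =>
    intro v
    rw [sp_mul_apply]
    exact (hy v).trans (hx _)
  | inv x _ hx =>
    intro v
    have := hx ((x⁻¹).1 v)
    rw [sp_apply_inv_self] at this
    exact this.symm

/-- Lemma D. -/
theorem lemmaD {j : ℕ} (hj : j < 7) {g : G} (h1 : Good j (g.1 e1)) (h2 : Good j (g.1 e2)) :
    g ∈ KK j := by
  obtain ⟨k, hk, hk1⟩ := exists_mem hj h1
  obtain ⟨g', hg'⟩ : ∃ g', g' = k⁻¹ * g := ⟨_, rfl⟩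
  have hg : g = k * g' := by rw [hg', mul_inv_cancel_left]
  have h3 : g'.1 e1 = e1 := by
    rw [hg', sp_mul_apply, ← hk1, sp_inv_apply_self]
  have h4 : Good j (g'.1 e2) := by
    rw [lemmaC hj hk, ← sp_mul_apply, ← hg]
    exact h2
  have h5 : (g'.1 e2).2 = 1 := by
    have := sp_B g' e1 e2
    rw [h3] at this
    simpa [B, e1, e2] using this
  obtain ⟨a, ha⟩ : ∃ a, a = (g'.1 e2).1 := ⟨_, rfl⟩
  have h6 : g'.1 e2 = (a, 1) := Prod.ext ha.symm h5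
  have h7 : encV (a, 1) = 64 * encF a + 1 := by
    show 64 * encF a + encF (1 : F64) = _
    have : encF (1 : F64) = 1 := by decide +kernel
    rw [this]
  have hc := allB_spec (allB_spec chkD_all j hj) (encF a) (encF_lt a)
  simp only [chkD, Bool.or_eq_true, Bool.and_eq_true, Bool.not_eq_true'] at hc
  rcases hc with hc | ⟨h8, h9⟩
  · rw [← h7, ← h6] at hc
    have h10 : leB (clsN (encV (g'.1 e2))) j = true := h4
    rw [h10] at hc
    exact absurd hc (by decide)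
  · have h9 := Nat.eq_of_beq_eq_true h9
    obtain ⟨l, hl⟩ : ∃ l : F64, l = decF (sqN (encF a)) := ⟨_, rfl⟩
    have hsq : sqN (encF a) < 64 := Nat.mod_lt _ (by norm_num)
    have hl' : encV (l, 0) = 64 * sqN (encF a) := by
      show 64 * encF l + encF (0 : F64) = _
      have : encF (0 : F64) = 0 := by decide +kernel
      rw [this, hl, encF_decF hsq, add_zero]
    have h11 : tv (l, 0) ∈ KK j := by
      rcases h8 with h8 | h8
      · have h8 := Nat.eq_of_beq_eq_true h8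
        have h12 : ((l, 0) : F64 × F64) = (0, 0) := by
          apply encV_inj
          rw [hl', h8, enc_zero]
        rw [h12]
        have h13 : tv ((0, 0) : F64 × F64) = 1 := by
          apply sp_eq_one
          · show tvec (0, 0) (1, 0) = (1, 0)
            simp [tvec]
          · show tvec (0, 0) (0, 1) = (0, 1)
            simp [tvec]
        rw [h13]
        exact one_mem _
      · rw [← hl'] at h8
        exact tv_mem hj h8
    have h14 : g' = tv (l, 0) := by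
      apply sp_ext
      · rw [show ((1 : F64), (0 : F64)) = e1 from rfl, h3]
        show e1 = tvec (l, 0) e1
        simp [tvec, B, e1]
      · rw [show ((0 : F64), (1 : F64)) = e2 from rfl, h6]
        show (a, 1) = tvec (l, 0) e2
        apply encV_inj
        rw [enc_tvec, enc_e2', hl', h7, h9]
    rw [hg, h14]
    exact mul_mem hk h11

/-- Lemma B: the representative of the class of a vector is generated. -/
theorem lemmaB {K : Subgroup G} (hK : H0 ≤ K) : ∀ (n : ℕ) (v : F64 × F64),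
    pathN (encV v) / 8 < n → encV v ≠ 0 → tv v ∈ K → tv (rep (cls v)) ∈ K := by
  have hK1 : tv e1 ∈ K := hK (subset_closure (Or.inl rfl))
  have hK2 : tv e2 ∈ K := hK (subset_closure (Or.inr rfl))
  have hK12 : tv e12 ∈ K := by
    have h : tvec e2 e1 = e12 := by simp [tvec, B, e1, e2, e12]
    rw [← h]
    exact tv_tvec_mem hK1 hK2
  intro n
  induction n with
  | zero => intro v hv; exact absurd hv (Nat.not_lt_zero _)
  | succ n ih =>
    intro v hn h0 hv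
    have hc := allV_spec chkB_all (encV v) (encV_lt v)
    simp only [chkB, Bool.or_eq_true, Bool.and_eq_true] at hc
    rcases hc with (hc | hc) | hc
    · exact absurd (Nat.eq_of_beq_eq_true hc) h0
    · have h1 : rep (cls v) = v := by
        apply encV_inj
        rw [enc_rep]
        exact (Nat.eq_of_beq_eq_true hc).symm
      rwa [h1]
    · have key : ∃ v', encV v' = stepN (pathN (encV v) % 8) (encV v) ∧ tv v' ∈ K := by
        generalize pathN (encV v) % 8 = i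
        rcases i with _ | _ | _ | _ | i
        · exact ⟨tvec e1 v, by rw [enc_tvec, enc_e1']; rfl, tv_tvec_mem hv hK1⟩
        · exact ⟨tvec e2 v, by rw [enc_tvec, enc_e2']; rfl, tv_tvec_mem hv hK2⟩
        · exact ⟨tvec v e1, by rw [enc_tvec, enc_e1']; rfl, tv_tvec_mem hK1 hv⟩
        · exact ⟨tvec v e2, by rw [enc_tvec, enc_e2']; rfl, tv_tvec_mem hK2 hv⟩
        · exact ⟨tvec v e12, by rw [enc_tvec, show encV e12 = 65 from enc_e12]; rfl,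
            tv_tvec_mem hK12 hv⟩
      obtain ⟨v', h1, h2⟩ := key
      rw [← h1] at hc
      have h3 := Nat.eq_of_beq_eq_true hc.1
      have h4 := Nat.le_of_ble_eq_true hc.2
      have h5 : encV v' ≠ 0 := by
        intro h
        have h6 : clsN (encV v') = 7 := by rw [h]; decide +kernel
        have h7 := allV_spec chkF_all (encV v) (encV_lt v)
        simp only [chkF, Bool.or_eq_true] at h7
        rcases h7 with h7 | h7
        · exact h0 (Nat.eq_of_beq_eq_true h7)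
        · have := Nat.le_of_ble_eq_true h7
          omega
      have h8 := ih v' (by omega) h5 h2
      have h9 : cls v' = cls v := h3
      rwa [h9] at h8

theorem rep_cls_mem {K : Subgroup G} (hK : H0 ≤ K) {v : F64 × F64} (h0 : encV v ≠ 0)
    (hv : tv v ∈ K) : tv (rep (cls v)) ∈ K := lemmaB hK _ v (Nat.lt_succ_self _) h0 hv

theorem cls_lt {v : F64 × F64} (h0 : encV v ≠ 0) : cls v < 7 := by
  have h7 := allV_spec chkF_all (encV v) (encV_lt v)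
  simp only [chkF, Bool.or_eq_true] at h7
  rcases h7 with h7 | h7
  · exact absurd (Nat.eq_of_beq_eq_true h7) h0
  · exact Nat.le_of_ble_eq_true h7

theorem chkE_spec {i j : ℕ} (hi : i < 7) (hj : j < 7) :
    ((leB i j = true ∨ leB j i = true) ∨ clsN (trN (repN i) (repN j)) = joinN i j) ∧
    (leB i j = true ∨ ¬ (leB (clsN (trN 64 (repN i))) j = true ∧
      leB (clsN (trN 1 (repN i))) j = true)) ∧
    (leB i j = true → leB (clsN (repN i)) j = true) ∧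
    leB i (joinN i j) = true ∧ j ≤ joinN i j ∧ joinN i j < 7 := by
  have h := allB_spec (allB_spec chkE_all i hi) j hj
  simp only [chkE, Bool.and_eq_true, Bool.or_eq_true, Bool.not_eq_true',
    Bool.and_eq_false_iff] at h
  obtain ⟨h1, h2, h3, h4, h5, h6⟩ := h
  refine ⟨?_, ?_, ?_, h4, Nat.le_of_ble_eq_true h5, Nat.le_of_ble_eq_true h6⟩
  · rcases h1 with h1 | h1
    · exact Or.inl h1
    · exact Or.inr (Nat.eq_of_beq_eq_true h1)
  · rcases h2 with h2 | h2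
    · exact Or.inl h2
    · right
      rintro ⟨h7, h8⟩
      rcases h2 with h2 | h2
      · rw [h7] at h2; exact absurd h2 (by decide)
      · rw [h8] at h2; exact absurd h2 (by decide)
  · intro h7
    rcases h3 with h3 | h3
    · rw [h7] at h3; exact absurd h3 (by decide)
    · exact h3

/-- Lemma E: every intermediate subgroup is one of the seven. -/
theorem lemmaE {K : Subgroup G} (hK : H0 ≤ K) : ∃ j, j < 7 ∧ K = KK j := by
  classical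
  have hK1 : tv e1 ∈ K := hK (subset_closure (Or.inl rfl))
  have hK2 : tv e2 ∈ K := hK (subset_closure (Or.inr rfl))
  let S : Finset ℕ := (Finset.range 7).filter fun j => tv (rep j) ∈ K
  have hS : ∀ j, j ∈ S ↔ j < 7 ∧ tv (rep j) ∈ K := by
    intro j
    simp only [S, Finset.mem_filter, Finset.mem_range]
  have hcls : ∀ v, encV v ≠ 0 → tv v ∈ K → cls v ∈ S := fun v h0 hv =>
    (hS _).2 ⟨cls_lt h0, rep_cls_mem hK h0 hv⟩
  have hne : S.Nonempty := ⟨cls e1, hcls e1 (by rw [enc_e1']; decide) hK1⟩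
  have hmax := S.max'_mem hne
  obtain ⟨m, hm⟩ : ∃ m, m = S.max' hne := ⟨_, rfl⟩
  rw [← hm] at hmax
  have hle : ∀ i ∈ S, i ≤ m := fun i hi => by rw [hm]; exact S.le_max' i hi
  have hm7 : m < 7 := ((hS m).1 hmax).1
  have hall : ∀ i ∈ S, leB i m = true := by
    intro i hi
    have hi7 : i < 7 := ((hS i).1 hi).1
    obtain ⟨h1, -, -, h4, h5, h6⟩ := chkE_spec hi7 hm7
    rcases h1 with (h1 | h1) | h1
    · exact h1
    · obtain ⟨-, -, -, h4', h5', -⟩ := chkE_spec hm7 hi7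
      have h7 : i ≤ m := hle i hi
      -- `m ≤ i` in the lattice and `i ≤ m` as numbers
      have : ∀ a, a < 7 → ∀ b, b < 7 → leB b a = true → a ≤ b → leB a b = true := by
        decide +kernel
      exact this i hi7 m hm7 h1 h7
    · have h7 : tv (tvec (rep m) (rep i)) ∈ K :=
        tv_tvec_mem ((hS i).1 hi).2 ((hS m).1 hmax).2
      have h8 : cls (tvec (rep m) (rep i)) = joinN i m := by
        show clsN (encV (tvec (rep m) (rep i))) = _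
        rw [enc_tvec, enc_rep, enc_rep, h1]
      have h9 : encV (tvec (rep m) (rep i)) ≠ 0 := by
        intro h
        have h10 : clsN (encV (tvec (rep m) (rep i))) = 7 := by rw [h]; decide +kernel
        have h11 : clsN (encV (tvec (rep m) (rep i))) = joinN i m := h8
        omega
      have h10 := hcls _ h9 h7
      rw [h8] at h10
      have h11 := hle _ h10
      have h12 : joinN i m = m := le_antisymm h11 h5
      rwa [h12] at h4
  refine ⟨m, hm7, le_antisymm ?_ ?_⟩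
  · intro g hg
    have hz : ∀ v w : F64 × F64, B (g.1 v) (g.1 w) ≠ 0 → encV (g.1 v) ≠ 0 ∧ encV (g.1 w) ≠ 0 := by
      intro v w h
      constructor
      · intro h1
        apply h
        have h2 : g.1 v = (0, 0) := encV_inj (h1.trans enc_zero.symm)
        rw [h2]; simp [B]
      · intro h1
        apply h
        have h2 : g.1 w = (0, 0) := encV_inj (h1.trans enc_zero.symm)
        rw [h2]; simp [B]
    have h10 : (1 : F64) ≠ 0 := by
      intro h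
      have h2 : encF (1 : F64) = encF (0 : F64) := by rw [h]
      exact absurd h2 (by decide +kernel)
    obtain ⟨h3, h4⟩ := hz e1 e2 (by rw [sp_B]; simpa [B, e1, e2] using h10)
    exact lemmaD hm7 (hall _ (hcls _ h3 (conj_mem hg hK1))) (hall _ (hcls _ h4 (conj_mem hg hK2)))
  · refine (closure_le _).2 ?_
    rintro x (hx | hx | hx)
    · rw [hx]; exact hK1
    · rw [hx]; exact hK2
    · rw [Set.mem_singleton_iff.1 hx]; exact ((hS m).1 hmax).2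

theorem KK_le_iff {i j : ℕ} (hi : i < 7) (hj : j < 7) : KK i ≤ KK j ↔ leB i j = true := by
  obtain ⟨-, h2, h3, -⟩ := chkE_spec hi hj
  constructor
  · intro h
    rcases h2 with h2 | h2
    · exact h2
    · exfalso
      apply h2
      have h4 : tv (rep i) ∈ KK j := h (tv_rep_mem i)
      have h5 : ∀ v, Good j v ↔ Good j (tvec (rep i) v) := by
        intro v
        rw [← tv_apply]
        exact lemmaC hj h4 v
      have h6 : Good j e1 := by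
        have : ∀ j, j < 7 → leB (clsN 64) j = true := by decide +kernel
        show leB (clsN (encV e1)) j = true
        rw [enc_e1']
        exact this j hj
      have h7 : Good j e2 := by
        have : ∀ j, j < 7 → leB (clsN 1) j = true := by decide +kernel
        show leB (clsN (encV e2)) j = true
        rw [enc_e2']
        exact this j hj
      constructor
      · have h8 : leB (clsN (encV (tvec (rep i) e1))) j = true := (h5 e1).1 h6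
        rwa [enc_tvec, enc_e1', enc_rep] at h8
      · have h8 : leB (clsN (encV (tvec (rep i) e2))) j = true := (h5 e2).1 h7
        rwa [enc_tvec, enc_e2', enc_rep] at h8
  · intro h
    refine (closure_le _).2 ?_
    rintro x (hx | hx | hx)
    · rw [hx]; exact tv_e1_mem j
    · rw [hx]; exact tv_e2_mem j
    · rw [Set.mem_singleton_iff.1 hx]
      apply tv_mem hj
      show leB (clsN (encV (rep i))) j = true
      rw [enc_rep]
      exact h3 h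

end Vale.Agent.P183.L7
end

section

/-!
Finite ordered sets given by Boolean tables.
-/

namespace Vale.Agent.P183

/-- The set `Fin n` with the relation `r`. -/
def Car {n : ℕ} (_ : Fin n → Fin n → Bool) : Type := Fin n

instance {n : ℕ} (r : Fin n → Fin n → Bool) : LE (Car r) := ⟨fun a b => r a b = true⟩

instance {n : ℕ} (r : Fin n → Fin n → Bool) : Finite (Car r) := inferInstanceAs (Finite (Fin n))

/-- The table describes a partial order. -/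
def IsPO {n : ℕ} (r : Fin n → Fin n → Bool) : Prop :=
  (∀ a, r a a = true) ∧ (∀ a b, r a b = true → r b a = true → a = b) ∧
    ∀ a b c, r a b = true → r b c = true → r a c = true

instance {n : ℕ} (r : Fin n → Fin n → Bool) : Decidable (IsPO r) := by
  unfold IsPO; infer_instance

/-- The partial order of a table. -/
@[reducible] def IsPO.partialOrder {n : ℕ} {r : Fin n → Fin n → Bool} (h : IsPO r) :
    PartialOrder (Car r) where
  le a b := r a b = true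
  le_refl a := h.1 a
  le_trans a b c hab hbc := h.2.2 a b c hab hbc
  le_antisymm a b hab hba := h.2.1 a b hab hba

end Vale.Agent.P183
end

section

/-!
The seven-element lattice is representable.
-/

namespace Vale.Agent.P183.L7

instance : Finite F64 := by
  have h : Function.Injective (fun x : F64 => (⟨encF x, encF_lt x⟩ : Fin 64)) := by
    intro x y hxy
    have h1 : encF x = encF y := congrArg Fin.val hxy
    rw [← decF_encF x, h1, decF_encF]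
  exact Finite.of_injective _ h

instance : Finite G := inferInstanceAs (Finite (Sp F64))

/-- The order of the seven-element lattice. -/
def leL7 (i j : Fin 7) : Bool := leB i.1 j.1

theorem isPO_leL7 : IsPO leL7 := by decide +kernel

theorem representable_L7 : Representable (Car leL7) := by
  let _ : PartialOrder (Car leL7) := isPO_leL7.partialOrder
  have h := representable_interval G H0
  let f : Car leL7 → {K : Subgroup G // H0 ≤ K} := fun j => ⟨KK j.1, H0_le j.1⟩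
  refine Representable.of_iso (RelIso.ofSurjective (OrderEmbedding.ofMapLEIff f ?_) ?_) h
  · intro i j
    exact KK_le_iff i.2 j.2
  · rintro ⟨K, hK⟩
    obtain ⟨j, hj, rfl⟩ := lemmaE hK
    exact ⟨⟨j, hj⟩, rfl⟩

/-- The table of the order with bottom `0`, top `6`, atoms `1, 4, 5`, coatoms `1, 2, 3` and
`4 < 3`, `5 < 2`, `5 < 3`. -/
def tableL7 (i j : Fin 7) : Bool :=
  match i.1, j.1 with
  | 0, _ => true
  | _, 6 => true
  | 4, 3 => true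
  | 5, 2 => true
  | 5, 3 => true
  | a, b => Nat.beq a b

/-- The relabelling. -/
def relabel (i : Fin 7) : Fin 7 :=
  match i.1 with
  | 0 => 0
  | 1 => 3
  | 2 => 5
  | 3 => 4
  | 4 => 2
  | 5 => 1
  | _ => 6

/-- The inverse relabelling. -/
def relabel' (i : Fin 7) : Fin 7 :=
  match i.1 with
  | 0 => 0
  | 1 => 5
  | 2 => 4
  | 3 => 1
  | 4 => 3
  | 5 => 2
  | _ => 6

theorem isPO_tableL7 : IsPO tableL7 := by decide +kernel

/-- The exceptional seven-element lattice is representable. -/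
theorem L7_representable : Representable (Car tableL7) := by
  let _ : PartialOrder (Car leL7) := isPO_leL7.partialOrder
  let _ : PartialOrder (Car tableL7) := isPO_tableL7.partialOrder
  let e : Car tableL7 ≃o Car leL7 :=
    { toFun := relabel
      invFun := relabel'
      left_inv := by
        show ∀ i, relabel' (relabel i) = i
        decide +kernel
      right_inv := by
        show ∀ i, relabel (relabel' i) = i
        decide +kernel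
      map_rel_iff' := by
        show ∀ {i j : Fin 7}, leL7 (relabel i) (relabel j) = true ↔ tableL7 i j = true
        decide +kernel }
  exact Representable.of_iso e representable_L7

end Vale.Agent.P183.L7
end

section

/-!
Every lattice with at most seven elements is representable.
-/

namespace Vale.Agent.P183

/-- Relabelling of the exceptional lattice. -/
def rl (i : Fin 7) : Fin 7 :=
  match i.1 with
  | 0 => 0
  | 1 => 1
  | 2 => 2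
  | 3 => 4
  | 4 => 5
  | 5 => 3
  | _ => 6

/-- The inverse relabelling. -/
def rl' (i : Fin 7) : Fin 7 :=
  match i.1 with
  | 0 => 0
  | 1 => 1
  | 2 => 2
  | 3 => 5
  | 4 => 3
  | 5 => 4
  | _ => 6

/-- The exceptional lattice is representable. -/
theorem representable_FO_seven : Representable (FO 7 14) := by
  let e : FO 7 14 ≃o Car L7.leL7 :=
    { toFun := rl
      invFun := rl'
      left_inv := by
        show ∀ i, rl' (rl i) = i
        decide +kernel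
      right_inv := by
        show ∀ i, rl (rl' i) = i
        decide +kernel
      map_rel_iff' := by
        show ∀ {i j : Fin 7}, L7.leL7 (rl i) (rl j) = true ↔ ordB 7 14 i.1 j.1 = true
        decide +kernel }
  exact Representable.of_iso e L7.representable_L7

/-- Every lattice with at most seven elements is representable. -/
theorem representable_card_le_seven (L : Type) [Lattice L] [Finite L] [Nonempty L]
    (h : Nat.card L ≤ 7) : Representable L :=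
  representable_of_card_le_seven representable_FO_seven L h

end Vale.Agent.P183
end

section

/-!
Finite lattices whose elements are separated by homomorphisms into lattices with at most seven
elements are representable.
-/

namespace Vale.Agent.P183

theorem representable_of_separated_seven (L : Type) [Lattice L] [Finite L] [Nonempty L]
    (h : ∀ a b : L, a ≠ b → ∃ (K : Type) (_ : Lattice K) (_ : Finite K) (f : LatticeHom L K),
      Nat.card K ≤ 7 ∧ f a ≠ f b) : Representable L := by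
  apply representable_of_separated
  intro a b hab
  obtain ⟨K, _, _, f, hcard, hne⟩ := h a b hab
  have hfin : Finite (imS f) := inferInstanceAs (Finite {x : K // x ∈ imS f})
  have hnon : Nonempty (imS f) := ⟨toIm f a⟩
  refine ⟨imS f, inferInstance, toIm f, toIm_surj f, ?_, ?_⟩
  · apply representable_card_le_seven
    exact (Nat.card_le_card_of_injective (fun x : imS f => x.1)
      Subtype.val_injective).trans hcard
  · intro heq
    exact hne (congrArg Subtype.val heq)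

end Vale.Agent.P183
end
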